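import Vale.Agent.P078.Quad.Defect.Low

/-! The lifted charged defect: the top levels cost their rank times the charge, the low levels the
weights over the level. -/

namespace Vale.Agent.P078.Quad.Defect

set_option linter.unusedSectionVars false

open Filter Topology MeasureTheory
open Vale.Agent.P078.Tracial Vale.Agent.P078.AllMasa Vale.Agent.P078.AllMasa.Lift
open scoped ENNReal InnerProductSpace ComplexOrder

section abstract

variable {A : Type*} [CStarAlgebra A] [PartialOrder A] [StarOrderedRing A]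

/-- Bounded conjugations between a square below a constant. -/
theorem star_conj_proj_le {p s b : A} {c : ℝ} (hp : IsStarProjection p) (hs : star s = s)
    (hss : s * s ≤ (c : ℂ) • 1) :
    star (s * b) * p * (s * b) ≤ (c : ℂ) • (star b * b) := by
  refine le_trans ?_ (conj_le_smul (a := b) hss)
  refine (star_left_conjugate_le_conjugate hp.le_one (s * b)).trans_eq ?_
  rw [star_mul, hs]; noncomm_ring

/-- Conjugating an inequality by a self adjoint element around an element. -/
theorem sandwich_le {s b P P' : A} (hs : star s = s) (h : P ≤ P') :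
    s * (b * P * star b) * s ≤ s * (b * P' * star b) * s := by
  have h1 := star_left_conjugate_le_conjugate h (star b)
  rw [star_star] at h1
  have h2 := star_left_conjugate_le_conjugate h1 s
  rwa [hs] at h2

end abstract

variable {X : Type} [TopologicalSpace X] [CompactSpace X] [T2Space X] [TotallyDisconnectedSpace X]
variable [MeasurableSpace X] [BorelSpace X]
variable {ν : Measure X} [IsFiniteMeasure ν] {r : ℕ} {d : WData X r}

theorem top_le [ν.Regular] (hd : d.OkW) (hns : ∀ c k, ((d.F c).p k).NS ν) (f : Fin r → C(X, ℝ))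
    (hf : ∀ c x, 0 ≤ f c x) {fmax : ℝ} (hfmax : ∀ c x, f c x ≤ fmax) (hfmax0 : 0 ≤ fmax)
    {R : ℝ} (hR : 0 ≤ R) {Y : H ν →L[ℂ] H ν}
    (hY : proj ν (topSet_meas d.toLData R) * (star Y * MW ν d hns * Y) *
      proj ν (topSet_meas d.toLData R) ≤ proj ν (topSet_meas d.toLData R))
    (π : DiscreteQuotient X) :
    ∑ c, (diag (topWin ν d.toLData R) π (star ((xWord ν (rootC (f c))).op * (Bop ν d hns c * Y)) *
      proj ν (Win.one ν).meas * ((xWord ν (rootC (f c))).op * (Bop ν d hns c * Y)))).re
      ≤ fmax * R * ∫ x, d.U x ∂ν := by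
  set W := topWin ν d.toLData R with hW
  set T := proj ν (topSet_meas d.toLData R) with hT
  have hs1 : ∀ c, star ((xWord ν (rootC (f c))).op * (Bop ν d hns c * Y)) *
      proj ν (Win.one ν).meas * ((xWord ν (rootC (f c))).op * (Bop ν d hns c * Y)) ≤
        (fmax : ℂ) • (star (Bop ν d hns c * Y) * (Bop ν d hns c * Y)) := fun c => by
    refine star_conj_proj_le (proj_isStarProjection _) (xWord_star _) ?_
    rw [xWord_mul, rootC_mul (hf c)]
    exact Schur.le_smul_norm (xWord_star _) (norm_xWord_le hfmax0 fun x => by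
      rw [abs_of_nonneg (hf c x)]; exact hfmax c x)
  have e : ∑ c, star (Bop ν d hns c * Y) * (Bop ν d hns c * Y) = star Y * MW ν d hns * Y := by
    rw [MW, Finset.mul_sum, Finset.sum_mul]
    refine Finset.sum_congr rfl fun c _ => ?_
    rw [star_mul]
    simp only [mul_assoc]
  calc _ ≤ ∑ c, (diag W π ((fmax : ℂ) • (star (Bop ν d hns c * Y) * (Bop ν d hns c * Y)))).re :=
        Finset.sum_le_sum fun c _ => diag_mono (hs1 c) W π
    _ = fmax * (diag W π (T * (star Y * MW ν d hns * Y) * T)).re := by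
        simp only [diag_smul, Complex.re_ofReal_mul, ← Finset.mul_sum]
        rw [← Complex.re_sum, ← diag_sum, e]
        congr 1
        exact congrArg Complex.re (diag_proj W π _).symm
    _ ≤ fmax * ((nu ν).real W.s * 1) := by
        refine mul_le_mul_of_nonneg_left ((diag_mono hY W π).trans ((Complex.re_le_norm _).trans
          ((norm_diag_le W π T).trans (mul_le_mul_of_nonneg_left ?_ measureReal_nonneg)))) hfmax0
        exact norm_op_le (indWord ν (topSet_meas d.toLData R)) zero_le_one le_rfl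
    _ = _ := by
        rw [mul_one, show W.s = topSet d.toLData R from rfl, real_topSet hd.base hR]
        ring

theorem eventually_lifted_charge_le [ν.Regular] (hd : d.OkW)
    (hnull : ∀ c k, ((d.F c).p k).NullPres ν) (hns : ∀ c k, ((d.F c).p k).NS ν) {τ0 : ℝ}
    (hτ0 : 0 < τ0)
    (hsuper : ∀ c (f : C(X, ℝ)), 0 ≤ f →
      (∫ x, d.act c x * d.n c x * (d.F c).K (d.act c * f) x ∂ν) + τ0 * ∫ x, d.act c x * f x ∂ν
        ≤ ∫ x, d.e c x * d.n c x * (d.act c x * f x) ∂ν)
    (f : Fin r → C(X, ℝ)) (hf : ∀ c x, 0 ≤ f c x) {fmax c2 : ℝ}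
    (hfmax : ∀ c x, f c x ≤ fmax)
    (hc2 : ∀ c x, d.act c x = 1 → f c x * d.μ c x ^ 2 ≤ c2 * d.n c x ^ 2)
    (hc20 : 0 ≤ c2) (hfmax0 : 0 ≤ fmax) {R : ℝ} (hR : 1 ≤ R) (m : ℕ) {ε : ℝ} (hε : 0 < ε) :
    ∀ᶠ π : DiscreteQuotient X in atBot,
      (∑ c, diag (Win.one ν) π ((xWord ν (rootC (f c))).op *
          (Bop ν d hns c * qW ν d hns m * star (Bop ν d hns c)) *
            (xWord ν (rootC (f c))).op)).re ≤
        2 * (fmax * R * (∫ x, d.U x ∂ν)
            + c2 / R * ∑ c, ∫ x, d.act c x * (d.n c x ^ 2 / d.μ c x ^ 2) ∂ν) + ε := by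
  classical
  have hR0 : 0 < R := one_pos.trans_le hR
  have hTW := TW_pos hd
  set η : ℝ := (d.TW⁻¹ * (2 * m) + 1)⁻¹ with hη
  have hη0 : 0 < η := by positivity
  have hηn : η * (d.TW⁻¹ * (2 * m)) ≤ 1 := by
    rw [hη, inv_mul_le_iff₀ (by positivity), mul_one]; linarith
  set T := proj ν (topSet_meas d.toLData R) with hTdef
  obtain ⟨Q, Y, -, hYs, hQ0, hTQ, hinv, hYM⟩ := Schur.exists_split (alg ν) (MW_nonneg hns)
    (MW_mem ν d hns) (proj_isStarProjection (topSet_meas d.toLData R)) (proj_mem _) hη0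
  have hNpos : IsStrictlyPositive (MW ν d hns + (η : ℂ) • 1) :=
    Schur.isUnit_of_ge' hη0 (le_add_of_nonneg_left (MW_nonneg hns))
  have hYT : 0 ≤ Y * T * star Y := by
    have h := star_left_conjugate_le_conjugate
      ((proj_isStarProjection (μ := ν) (topSet_meas d.toLData R)).nonneg) (star Y)
    rwa [star_star, mul_zero, zero_mul] at h
  have hQi : Q ≤ Ring.inverse (MW ν d hns + (η : ℂ) • 1) := by
    rw [hinv]; exact le_add_of_nonneg_right hYT
  have hBB : ∀ c, star (Bop ν d hns c) * Bop ν d hns c ≤ MW ν d hns + (η : ℂ) • 1 := fun c =>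
    (Finset.single_le_sum (f := fun i => star (Bop ν d hns i) * Bop ν d hns i)
      (fun i _ => star_mul_self_nonneg _) (Finset.mem_univ c)).trans (le_add_of_nonneg_right
        ((Schur.smul_mono hη0.le zero_le_one).trans_eq' (smul_zero _)))
  have hBQB : ∀ c, Bop ν d hns c * Q * star (Bop ν d hns c) ≤ 1 := fun c => by
    have h := star_left_conjugate_le_conjugate hQi (star (Bop ν d hns c))
    rw [star_star] at h
    exact h.trans (conj_inverse_le_one' hNpos (hBB c))
  set S := Win.one ν with hS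
  set W := topWin ν d.toLData R with hW
  have hq := qW_le hns hd m hη0 hηn
  set Z : Fin r → H ν →L[ℂ] H ν := fun c =>
    (xWord ν (rootC (f c))).op * (Bop ν d hns c * Y) with hZ
  have hZs : ∀ c, Z c ∈ alg ν := fun c => mul_mem (op_mem_alg _) (mul_mem (Bop_mem ν d hns c) hYs)
  have hcyc := tendsto_finsetSum (Finset.univ : Finset (Fin r)) fun c _ =>
    tendsto_cyclic S W (B := Z c) (C := star (Z c)) (hZs c) (star_mem (hZs c))
  rw [Finset.sum_const_zero] at hcyc
  filter_upwards [NormedAddGroup.tendsto_nhds_zero.1 hcyc (ε / 2) (by positivity)] with π hπ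
  have h1 : ∀ c, (diag S π ((xWord ν (rootC (f c))).op *
      (Bop ν d hns c * qW ν d hns m * star (Bop ν d hns c)) * (xWord ν (rootC (f c))).op)).re ≤
      2 * (c2 / R * ∫ x, d.act c x * (d.n c x ^ 2 / d.μ c x ^ 2) ∂ν) +
        2 * (diag S π (Z c * proj ν W.meas * star (Z c))).re := fun c => by
    refine (diag_mono (sandwich_le (xWord_star _) hq) S π).trans ?_
    rw [mul_smul_comm, smul_mul_assoc, mul_smul_comm, smul_mul_assoc, diag_smul,
      Complex.re_ofReal_mul, hinv, mul_add, add_mul, mul_add, add_mul, diag_add, Complex.add_re,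
      mul_add]
    refine add_le_add (mul_le_mul_of_nonneg_left
      ((low_boundW hd hnull hns hτ0 hsuper c (hf c) (hc2 c) hc20 hR hQ0 hTQ (hBQB c) π).trans_eq
        (by ring)) zero_le_two) (le_of_eq ?_)
    simp only [hZ, star_mul, xWord_star, show proj ν W.meas = T from rfl, hTdef, mul_assoc]
  have h2 : ∑ c, (diag W π (star (Z c) * proj ν S.meas * Z c)).re ≤ fmax * R * ∫ x, d.U x ∂ν :=
    top_le hd hns f hf hfmax hfmax0 hR0.le hYM π
  have h3 := (abs_le.1 ((Complex.abs_re_le_norm _).trans hπ.le)).2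
  simp only [Complex.re_sum, Complex.sub_re, Finset.sum_sub_distrib] at h3
  rw [Complex.re_sum]
  refine (Finset.sum_le_sum fun c _ => h1 c).trans ?_
  rw [Finset.sum_add_distrib, ← Finset.mul_sum, ← Finset.mul_sum, ← Finset.mul_sum]
  linarith

end Vale.Agent.P078.Quad.Defect
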