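import Vale.Agent.P078.Quad.Defect.Super

/-! The low part of the weighted defect: coercivity and the positive Green operator. -/

namespace Vale.Agent.P078.Quad.Defect

set_option linter.unusedSectionVars false

open Filter Topology MeasureTheory
open Vale.Agent.P078.Tracial Vale.Agent.P078.AllMasa Vale.Agent.P078.AllMasa.Lift
open scoped ENNReal InnerProductSpace ComplexOrder

variable {X : Type} [TopologicalSpace X] [CompactSpace X] [T2Space X] [TotallyDisconnectedSpace X]
variable [MeasurableSpace X] [BorelSpace X]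
variable {ν : Measure X} [IsFiniteMeasure ν] {r : ℕ} {d : WData X r}

theorem low_coerciveW [ν.Regular]
    (hd : d.OkW) (hnull : ∀ c k, ((d.F c).p k).NullPres ν)
    (hns : ∀ c k, ((d.F c).p k).NS ν) {τ0 : ℝ} (hτ0 : 0 < τ0)
    (hsuper : ∀ c (f : C(X, ℝ)), 0 ≤ f →
      (∫ x, d.act c x * d.n c x * (d.F c).K (d.act c * f) x ∂ν) + τ0 * ∫ x, d.act c x * f x ∂ν
        ≤ ∫ x, d.e c x * d.n c x * (d.act c x * f x) ∂ν)
    (c : Fin r) {R : ℝ} (hR : 0 < R) :
    ((τ0 / d.B : ℝ) : ℂ) • proj ν (lowSet_meas d.toLData c R) ≤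
      proj ν (lowSet_meas d.toLData c R) *
        ((xWord ν (d.e c)).op - ∑ k, (gWord ν ((d.F c).g k) ((d.F c).p k) (hns c k)).op) *
        proj ν (lowSet_meas d.toLData c R) := by
  classical
  have hR0 := hR
  obtain ⟨inv, hinv, hp, hg⟩ := (hd.base.symm c).exists_inv
  set P := proj ν (lowSet_meas d.toLData c R) with hP
  set E0 := (xWord ν (d.e c)).op with hE0
  set K := ∑ k, (gWord ν ((d.F c).g k) ((d.F c).p k) (hns c k)).op with hK
  have hB0 := hd.base.B_pos
  set τ1 : ℝ := τ0 / d.B with hτ1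
  have hτ10 : 0 < τ1 := div_pos hτ0 hB0
  have hg0 : ∀ k x, 0 ≤ (d.F c).g k x := fun k x =>
    ContinuousMap.le_def.1 ((hd.base.symm c).g_nonneg k) x
  have he0 : ∀ x, 0 ≤ d.e c x := fun x => ContinuousMap.le_def.1 (hd.base.e_nonneg c) x
  set Ls := lowSet d.toLData c R with hLs
  -- the rate on the low part
  have hrate := ae_fst (super_aeW hd hnull hsuper c)
  have hpos : ∀ᵐ z ∂nu ν, ∀ k, z.1 ∈ ((d.F c).p k).dom →
      0 < (((d.F c).p k).dens ν z.1).toReal :=
    ae_all_iff.2 fun k => ae_fst (dens_pos (hns c k))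
  -- the translations compressed to the low part
  set ωf : X × ℝ → ℝ := fun z => if 0 < z.2 then d.n c z.1 * z.2⁻¹ else 1 with hω
  have hωm : Measurable ωf :=
    Measurable.ite (measurableSet_lt measurable_const measurable_snd)
      (((d.n c).continuous.measurable.comp measurable_fst).mul measurable_snd.inv) measurable_const
  have hωp : ∀ z, 0 < ωf z := fun z => by
    simp only [hω]
    split_ifs with h
    · exact mul_pos (hd.n_pos c _) (inv_pos.2 h)
    · exact one_pos
  set i1 : X × ℝ → ℝ := Ls.indicator fun _ => 1 with hi1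
  have hi1m : Measurable i1 := measurable_const.indicator (lowSet_meas d.toLData c R)
  have hi1b : ∀ z, |i1 z| ≤ 1 := fun z => by by_cases h : z ∈ Ls <;> simp [hi1, h]
  set wl : Fin (d.F c).num → Word ν := fun k =>
    ⟨(d.F c).p k, hns c k, fun z => i1 z * (d.F c).g k z.1 * i1 (th ν ((d.F c).p k) z),
      (hi1m.mul ((((d.F c).g k).continuous.measurable).comp measurable_fst)).mul
        (hi1m.comp (th_meas _)), ‖(d.F c).g k‖, fun z => by
        rw [abs_mul, abs_mul]
        calc |i1 z| * |(d.F c).g k z.1| * |i1 (th ν ((d.F c).p k) z)|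
            ≤ 1 * ‖(d.F c).g k‖ * 1 := by
              have h := ((d.F c).g k).norm_coe_le_norm z.1
              rw [Real.norm_eq_abs] at h
              exact mul_le_mul (mul_le_mul (hi1b z) h (abs_nonneg _) zero_le_one) (hi1b _)
                (abs_nonneg _) (mul_nonneg zero_le_one (norm_nonneg _))
          _ = _ := by ring⟩ with hwl
  have hPK : P * K * P = ∑ k, (wl k).op := by
    refine ContinuousLinearMap.ext fun f => Lp.ext ?_
    show ⇑(P (K (P f))) =ᵐ[nu ν] _
    filter_upwards [coe_proj (μ := ν) (lowSet_meas d.toLData c R) (K (P f)),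
      coe_sum_op (fun k => gWord ν ((d.F c).g k) ((d.F c).p k) (hns c k)) (P f),
      coe_sum_op wl f, ae_all_iff.2 fun k =>
        (gWord ν ((d.F c).g k) ((d.F c).p k) (hns c k)).fn_congr
          (coe_proj (μ := ν) (lowSet_meas d.toLData c R) f)] with z h1 h2 h3 h4
    rw [h1, h3]
    by_cases hz : z ∈ Ls
    · rw [Set.indicator_of_mem hz, hK, h2]
      refine Finset.sum_congr rfl fun k _ => ?_
      rw [h4 k]
      by_cases hzd : z ∈ dz ((d.F c).p k)
      · have hzd1 : z ∈ dz (gWord ν ((d.F c).g k) ((d.F c).p k) (hns c k)).p := hzd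
        have hzd2 : z ∈ dz (wl k).p := hzd
        simp only [Word.fn, Set.indicator_of_mem hzd1, Set.indicator_of_mem hzd2]
        show (((d.F c).g k z.1 : ℝ) : ℂ) * (lowSet d.toLData c R).indicator f (th ν ((d.F c).p k) z) =
          (((i1 z * (d.F c).g k z.1 * i1 (th ν ((d.F c).p k) z)) : ℝ) : ℂ) *
            f (th ν ((d.F c).p k) z)
        by_cases hz2 : th ν ((d.F c).p k) z ∈ Ls <;> simp [hi1, hz, hz2, ← hLs]
      · have hzd1 : z ∉ dz (gWord ν ((d.F c).g k) ((d.F c).p k) (hns c k)).p := hzd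
        have hzd2 : z ∉ dz (wl k).p := hzd
        simp only [Word.fn, Set.indicator_of_notMem hzd1, Set.indicator_of_notMem hzd2]
    · rw [Set.indicator_of_notMem hz]
      refine (Finset.sum_eq_zero fun k _ => ?_).symm
      simp [Word.fn, hwl, hi1, hz, Set.indicator_apply]
  set βf : X × ℝ → ℝ := Ls.indicator fun z => d.e c z.1 - τ1 with hβ
  have hβm : Measurable βf :=
    (((d.e c).continuous.measurable.comp measurable_fst).sub_const τ1).indicator
      (lowSet_meas d.toLData c R)
  have hβb : ∀ z, |βf z| ≤ d.B + τ1 := fun z => by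
    by_cases h : z ∈ Ls
    · simp only [hβ, Set.indicator_of_mem h]
      rw [abs_le]; constructor <;> linarith [he0 z.1, hd.base.e_le c z.1]
    · simp only [hβ, Set.indicator_of_notMem h, abs_zero]; linarith
  have hsch := schur_test wl inv hinv (fun k => hp k)
    (fun k z => mul_nonneg (mul_nonneg (Set.indicator_nonneg (fun _ _ => zero_le_one) z)
      (hg0 k z.1)) (Set.indicator_nonneg (fun _ _ => zero_le_one) _))
    (fun k => by
      filter_upwards [th_symm (hns c k)] with z hs hz
      show i1 (th ν ((d.F c).p k) z) * (d.F c).g (inv k) (((d.F c).p k).τ z.1) *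
        i1 (th ν ((d.F c).p (inv k)) (th ν ((d.F c).p k) z)) =
        i1 z * (d.F c).g k z.1 * i1 (th ν ((d.F c).p k) z)
      rw [hp k, hs hz, show (d.F c).g (inv k) (((d.F c).p k).τ z.1) = (d.F c).g k z.1 by
        simp [hg k, PMap.T, PMap.symm, PMap.d_apply, ((d.F c).p k).map_dom _ hz.1,
          ((d.F c).p k).left_inv _ hz.1]]
      ring)
    hωm hωp hβm hβb (by
      filter_upwards [hrate, hpos] with z hz1 hz2
      by_cases hz : z ∈ Ls
      · have hza : d.act c z.1 = 1 := hz.1
        have hz0 : 0 < z.2 := hR0.trans hz.2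
        have h1 := hz1 hza
        simp only [hβ, Set.indicator_of_mem hz]
        have hn0 := hd.n_pos c z.1
        have h1' : rateW ν d c z.1 / d.n c z.1 ≤ d.e c z.1 - τ1 := by
          rw [div_le_iff₀ hn0, sub_mul, hτ1]
          have h3 : τ0 / d.B * d.n c z.1 ≤ τ0 := by
            rw [div_mul_eq_mul_div, div_le_iff₀ hB0]
            exact mul_le_mul_of_nonneg_left (hd.n_le c _) hτ0.le
          linarith
        rw [rateW, Finset.sum_div] at h1'
        refine le_trans (Finset.sum_le_sum fun k _ => ?_) h1' 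
        by_cases hk : z.1 ∈ ((d.F c).p k).dom
        · have hzd : z ∈ dz (wl k).p := ⟨hk, trivial⟩
          rw [Set.indicator_of_mem hzd]
          set ρ := (((d.F c).p k).dens ν z.1).toReal with hρ
          have hρ0 : 0 < ρ := hz2 k hk
          have hy : ωf (th ν ((d.F c).p k) z) / ωf z =
              d.n c (((d.F c).p k).τ z.1) * ρ / d.n c z.1 := by
            have h2 : 0 < z.2 / ρ := div_pos hz0 hρ0
            simp only [hω, th, ← hρ, if_pos hz0, if_pos h2]
            field_simp
          show i1 z * (d.F c).g k z.1 * i1 (th ν ((d.F c).p k) z) *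
            (ωf (th ν ((d.F c).p k) z) / ωf z) ≤ _
          rw [hy, PMap.d_apply, if_pos hk, one_mul, ← mul_div_assoc,
            div_le_div_iff_of_pos_right hn0, ← mul_assoc, ← mul_assoc ((d.F c).g k z.1)]
          refine mul_le_mul_of_nonneg_right (mul_le_mul_of_nonneg_right ?_ (hd.n_pos c _).le) hρ0.le
          simp only [hi1, Set.indicator_of_mem hz, one_mul]
          refine mul_le_mul_of_nonneg_left ?_ (hg0 k _)
          by_cases h2 : th ν ((d.F c).p k) z ∈ Ls
          · rw [Set.indicator_of_mem h2]; exact le_of_eq h2.1.symm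
          · rw [Set.indicator_of_notMem h2]
            rcases hd.base.act_01 c (((d.F c).p k).τ z.1) with h | h <;> simp [h]
        · have hzd : z ∉ dz (wl k).p := fun h => hk h.1
          rw [Set.indicator_of_notMem hzd]
          refine div_nonneg (mul_nonneg (mul_nonneg (mul_nonneg ?_ (hg0 k _))
            (mul_nonneg ?_ (hd.n_pos c _).le)) ENNReal.toReal_nonneg) hn0.le
          · simp [PMap.d_apply, hk]
          · rcases hd.base.act_01 c (((d.F c).p k).τ z.1) with h | h <;> simp [h]
      · simp only [hβ, Set.indicator_of_notMem hz]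
        refine le_of_eq (Finset.sum_eq_zero fun k _ => ?_)
        simp [hwl, hi1, hz, Set.indicator_apply])
  have hPE : P * E0 * P = (mulWord (μ := ν) hβm hβb).op + (τ1 : ℂ) • P := by
    refine ContinuousLinearMap.ext fun f => Lp.ext ?_
    rw [add_apply, smul_apply]
    show ⇑(P (E0 (P f))) =ᵐ[nu ν] _
    filter_upwards [coe_proj (μ := ν) (lowSet_meas d.toLData c R) (E0 (P f)),
      coe_mulWord (μ := ν) (φ := fun z : X × ℝ => d.e c z.1)
        ((d.e c).continuous.measurable.comp measurable_fst) (C := ‖d.e c‖)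
        (fun z => (d.e c).norm_coe_le_norm z.1) (P f),
      coe_proj (μ := ν) (lowSet_meas d.toLData c R) f, coe_mulWord (μ := ν) hβm hβb f,
      Lp.coeFn_add ((mulWord (μ := ν) hβm hβb).op f) ((τ1 : ℂ) • P f),
      Lp.coeFn_smul (τ1 : ℂ) (P f)] with z h1 h2 h3 h4 h5 h6
    rw [h1, h5, Pi.add_apply, h6, Pi.smul_apply, h4, smul_eq_mul]
    by_cases hz : z ∈ Ls
    · rw [Set.indicator_of_mem hz, show (E0 (P f) : H ν) z = _ from h2, h3,
        Set.indicator_of_mem hz, hβ, Set.indicator_of_mem hz]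
      push_cast; ring
    · rw [Set.indicator_of_notMem hz, h3, Set.indicator_of_notMem hz, hβ,
        Set.indicator_of_notMem hz]
      simp
  have e : P * (E0 - K) * P = P * E0 * P - P * K * P := by noncomm_ring
  rw [e, hPE, hPK, add_comm, add_sub_assoc]
  exact le_add_of_nonneg_right (sub_nonneg.2 hsch.1)

theorem exists_greenW [ν.Regular]
    (hd : d.OkW) (hnull : ∀ c k, ((d.F c).p k).NullPres ν)
    (hns : ∀ c k, ((d.F c).p k).NS ν) {τ0 : ℝ} (hτ0 : 0 < τ0)
    (hsuper : ∀ c (f : C(X, ℝ)), 0 ≤ f →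
      (∫ x, d.act c x * d.n c x * (d.F c).K (d.act c * f) x ∂ν) + τ0 * ∫ x, d.act c x * f x ∂ν
        ≤ ∫ x, d.e c x * d.n c x * (d.act c x * f x) ∂ν)
    (c : Fin r) {R : ℝ} (hR : 0 < R) :
    ∃ G : H ν →L[ℂ] H ν, star G = G ∧ G * extOp ν d.toLData hns c R = 1 ∧
      G * proj ν (lowSet_meas d.toLData c R) = proj ν (lowSet_meas d.toLData c R) * G ∧ PosPres G := by
  classical
  have hC0ge := low_coerciveW hd hnull hns hτ0 hsuper c hR
  set P := proj ν (lowSet_meas d.toLData c R) with hP
  set E0 := (xWord ν (d.e c)).op with hE0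
  set K := ∑ k, (gWord ν ((d.F c).g k) ((d.F c).p k) (hns c k)).op with hK
  have hB0 := hd.base.B_pos
  have hg0 : ∀ k x, 0 ≤ (d.F c).g k x := fun k x =>
    ContinuousMap.le_def.1 ((hd.base.symm c).g_nonneg k) x
  have he0 : ∀ x, 0 ≤ d.e c x := fun x => ContinuousMap.le_def.1 (hd.base.e_nonneg c) x
  set Ls := lowSet d.toLData c R with hLs
  have hPP : P * P = P := (proj_isStarProjection _).isIdempotentElem
  set P' := 1 - P with hP'
  have hPsa : star P = P := proj_star _
  have hP'sa : star P' = P' := by rw [hP', star_sub, star_one, hPsa]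
  have hP0 : 0 ≤ P := (proj_isStarProjection _).nonneg
  have hP'0 : 0 ≤ P' := (proj_isStarProjection (lowSet_meas d.toLData c R)).one_sub.nonneg
  have hPP' : P * P' = 0 := by rw [hP', mul_sub, mul_one, hPP, sub_self]
  have hP'P : P' * P = 0 := by rw [hP', sub_mul, one_mul, hPP, sub_self]
  set C0 := P * (E0 - K) * P with hC0
  set D := extOp ν d.toLData hns c R with hD'
  have hD : D = C0 + (d.B : ℂ) • P' := rfl
  set t1 := min (τ0 / d.B) d.B with ht1
  have ht10 : 0 < t1 := lt_min (div_pos hτ0 hB0) hB0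
  have hDge : (t1 : ℂ) • (1 : H ν →L[ℂ] H ν) ≤ D := by
    refine le_trans (le_of_eq_of_le ?_ (add_le_add
      (Schur.smul_mono_left hP0 (min_le_left (τ0 / d.B) d.B))
      (Schur.smul_mono_left hP'0 (min_le_right (τ0 / d.B) d.B)))) (add_le_add hC0ge le_rfl)
    rw [← smul_add, hP', add_sub_cancel, ht1]
  have hDpos : 0 ≤ D := (Schur.isUnit_of_ge' ht10 hDge).nonneg
  have hDsa : star D = D := (IsSelfAdjoint.of_nonneg hDpos).star_eq
  set m := ‖D‖ + d.B + 1 with hm
  have hm0 : 0 < m := by linarith [norm_nonneg D]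
  have hmc : (m : ℂ) ≠ 0 := Complex.ofReal_ne_zero.2 hm0.ne'
  set E := 1 - ((m⁻¹ : ℝ) : ℂ) • D with hE
  have hE0 : 0 ≤ E := by
    rw [hE, sub_nonneg]
    refine (Schur.smul_mono (inv_nonneg.2 hm0.le) (Schur.le_smul_norm
      (IsSelfAdjoint.of_nonneg hDpos) (show ‖D‖ ≤ m by linarith))).trans_eq ?_
    rw [smul_smul, ← Complex.ofReal_mul, inv_mul_cancel₀ hm0.ne', Complex.ofReal_one, one_smul]
  have hEn : ‖E‖ < 1 := by
    have ht1m : t1 ≤ m := (min_le_right (τ0 / d.B) d.B).trans (by linarith [norm_nonneg D])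
    have h1 : E ≤ ((1 - t1 / m : ℝ) : ℂ) • (1 : H ν →L[ℂ] H ν) := by
      rw [hE]
      refine (sub_le_sub_left (Schur.smul_mono (inv_nonneg.2 hm0.le) hDge) 1).trans_eq ?_
      rw [Complex.ofReal_sub, Complex.ofReal_one, sub_smul, one_smul, smul_smul,
        ← Complex.ofReal_mul, inv_mul_eq_div]
    refine (Schur.norm_le_smul_one (sub_nonneg.2 ((div_le_one hm0).2 ht1m)) hE0 h1).trans_lt ?_
    linarith [div_pos ht10 hm0]
  set G := ((m⁻¹ : ℝ) : ℂ) • ∑' i : ℕ, E ^ i with hG
  have hsum : Summable fun i : ℕ => E ^ i := summable_geometric_of_norm_lt_one hEn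
  have hDE : (1 - E) = ((m⁻¹ : ℝ) : ℂ) • D := by rw [hE, sub_sub_cancel]
  have hGD : G * D = 1 := by
    have h1 := geom_series_mul_neg E hEn
    rw [hDE, mul_smul_comm, ← smul_mul_assoc] at h1
    exact h1
  have hDG : D * G = 1 := by
    have h1 := mul_neg_geom_series E hEn
    rw [hDE, smul_mul_assoc, ← mul_smul_comm] at h1
    exact h1
  have hGsa : star G = G := by
    calc star G = star G * (D * G) := by rw [hDG, mul_one]
      _ = star (D * G) * G := by rw [star_mul, hDsa, mul_assoc]
      _ = G := by rw [hDG, star_one, one_mul]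
  have hDP : D * P = C0 := by
    rw [hD, add_mul, smul_mul_assoc, hP'P, smul_zero, add_zero, hC0, mul_assoc, hPP]
  have hPD : P * D = C0 := by
    rw [hD, mul_add, mul_smul_comm, hPP', smul_zero, add_zero, hC0, ← mul_assoc, ← mul_assoc, hPP]
  have hGP : G * P = P * G := by
    calc G * P = G * P * (D * G) := by rw [hDG, mul_one]
      _ = G * (P * D) * G := by noncomm_ring
      _ = G * (D * P) * G := by rw [hPD, hDP]
      _ = P * G := by rw [← mul_assoc G D P, hGD, one_mul]
  have hEpp : PosPres E := one_sub_extOp_posPres hd.base hns c hm0 (by linarith [norm_nonneg D])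
  have hGpp : PosPres G := by
    have h1 : PosPres (∑' i : ℕ, E ^ i) :=
      PosPres.tendsto (fun n => PosPres.sum (Finset.range n) fun i _ => hEpp.pow i)
        hsum.hasSum.tendsto_sum_nat
    exact h1.smul (inv_nonneg.2 hm0.le)
  exact ⟨G, hGsa, hGD, hGP, hGpp⟩

end Vale.Agent.P078.Quad.Defect
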