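import Vale.Agent.P078.Quad.Defect.Model

/-! The charged complement of the smoothed projection has the diagonal of its lift, with the
square root of the charge moved to both sides. -/

namespace Vale.Agent.P078.Quad.Defect

set_option linter.unusedSectionVars false

open Filter Topology MeasureTheory
open Vale.Agent.P078.Tracial Vale.Agent.P078.AllMasa Vale.Agent.P078.AllMasa.Lift
open scoped ENNReal InnerProductSpace ComplexOrder

variable {X : Type} [TopologicalSpace X] [CompactSpace X] [T2Space X] [TotallyDisconnectedSpace X]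
variable [MeasurableSpace X] [BorelSpace X]

/-- The square of the weighted budget on functions. -/
noncomputable def zW {r : ℕ} (d : WData X r) : Module.End ℝ C(X, ℝ) :=
  1 - d.TW⁻¹ • ∑ c, d.Lw c * d.Lt c

theorem LW_stepW {r : ℕ} (d : WData X r) (w : Fin r → C(X, ℝ)) :
    d.LW (d.stepW w) = zW d (d.LW w) := by
  rw [WData.LW_apply, zW]
  simp [WData.stepW_apply, map_sub, Finset.sum_sub_distrib, Finset.smul_sum]
  simp [WData.LW_apply]

theorem LW_stepW_pow {r : ℕ} (d : WData X r) (k : ℕ) (w : Fin r → C(X, ℝ)) :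
    d.LW ((d.stepW ^ k) w) = (zW d ^ k) (d.LW w) := by
  induction k with
  | zero => simp
  | succ k ih => rw [pow_succ', Module.End.mul_apply, LW_stepW, ih, pow_succ', Module.End.mul_apply]

theorem stepW_pow_apply {r : ℕ} (d : WData X r) (k : ℕ) (w : Fin r → C(X, ℝ)) (c : Fin r) :
    (d.stepW ^ k) w c =
      w c - d.TW⁻¹ • d.Lt c ((∑ i ∈ Finset.range k, zW d ^ i) (d.LW w)) := by
  induction k with
  | zero => simp
  | succ k ih =>
    rw [pow_succ', Module.End.mul_apply, WData.stepW_apply, LW_stepW_pow, ih,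
      Finset.sum_range_succ, LinearMap.add_apply, map_add, smul_add, sub_sub]

theorem complement_eq {r : ℕ} {d : WData X r} (hd : d.OkW) (m : ℕ) (π : DiscreteQuotient X)
    (c : Fin r) (j : π) :
    d.act c * cellFn π j - d.PW (2 * m) (unitVec π c j) c =
      (d.Lt c * (d.TW⁻¹ • ∑ i ∈ Finset.range (2 * m), zW d ^ i) * d.Lw c) (cellFn π j) := by
  have h2 : d.toLData.cut (unitVec π c j) c = d.act c * cellFn π j := by
    simp [LData.cut_apply, unitVec]
  have h1 : d.LW (d.toLData.cut (unitVec π c j)) = d.Lw c (cellFn π j) := by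
    rw [WData.LW_apply, Finset.sum_eq_single c
      (fun b _ h => by simp [LData.cut_apply, unitVec, Pi.single_eq_of_ne h]) (by simp)]
    rw [h2, WData.Lw_apply, WData.Lw_apply, mul_left_comm (d.μ c), LData.Lc_act hd.base]
  rw [WData.PW, LinearMap.comp_apply, stepW_pow_apply, h2, sub_sub_cancel, h1]
  simp

theorem Lw_eq {r : ℕ} (d : WData X r) (c : Fin r) :
    d.Lw c = mulC (d.n c) * d.toLData.Lc c * mulC (d.μ c) := rfl

theorem Lt_eq {r : ℕ} (d : WData X r) (c : Fin r) :
    d.Lt c = mulC (d.μ c) * d.toLData.Lc c * mulC (d.n c) := rfl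

theorem Lc_mem_rep {ν : Measure X} [IsFiniteMeasure ν] {r : ℕ} (d : LData X r)
    (hns : ∀ c k, ((d.F c).p k).NS ν) (c : Fin r) :
    (d.Lc c, Aop ν d hns c) ∈ repSpan ν := by
  have hK : (((d.F c).Kl,
      ∑ k, (gWord ν ((d.F c).g k) ((d.F c).p k) (hns c k)).op) :
        Module.End ℝ C(X, ℝ) × (H ν →L[ℂ] H ν)) ∈ repSpan ν := by
    have : ∑ k, ((mulC ((d.F c).g k) * ((d.F c).p k).Tl,
        (gWord ν ((d.F c).g k) ((d.F c).p k) (hns c k)).op) :
          Module.End ℝ C(X, ℝ) × (H ν →L[ℂ] H ν)) ∈ repSpan ν :=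
      (repSpan ν).sum_mem fun k _ => Submodule.subset_span ⟨_, _, _, rfl⟩
    convert this using 1
    exact Prod.ext (by simp [Fam.Kl, Prod.fst_sum]) (by simp [Prod.snd_sum])
  have := mul_mem_rep (mul_mem_rep (mulC_mem_rep (μ := ν) (d.act c))
    ((repSpan ν).sub_mem (mulC_mem_rep (μ := ν) (d.e c)) hK)) (mulC_mem_rep (μ := ν) (d.act c))
  convert this using 1
  exact Prod.ext (by simp [LData.Lc_eq]) (by simp [Aop])

theorem Lt_mem_rep {ν : Measure X} [IsFiniteMeasure ν] {r : ℕ} (d : WData X r)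
    (hns : ∀ c k, ((d.F c).p k).NS ν) (c : Fin r) :
    (d.Lt c, Bop ν d hns c) ∈ repSpan ν := by
  have := mul_mem_rep (mul_mem_rep (mulC_mem_rep (μ := ν) (d.μ c)) (Lc_mem_rep d.toLData hns c))
    (mulC_mem_rep (μ := ν) (d.n c))
  simpa only [Prod.mk_mul_mk, ← Lt_eq, Bop] using this

theorem Lw_mem_rep {ν : Measure X} [IsFiniteMeasure ν] {r : ℕ} {d : WData X r} (hd : d.OkW)
    (hns : ∀ c k, ((d.F c).p k).NS ν) (c : Fin r) :
    (d.Lw c, star (Bop ν d hns c)) ∈ repSpan ν := by
  have := mul_mem_rep (mul_mem_rep (mulC_mem_rep (μ := ν) (d.n c)) (Lc_mem_rep d.toLData hns c))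
    (mulC_mem_rep (μ := ν) (d.μ c))
  simpa only [Prod.mk_mul_mk, ← Lw_eq, ← Bop_star hns hd c] using this

theorem q_mem_rep {ν : Measure X} [IsFiniteMeasure ν] {r : ℕ} {d : WData X r} (hd : d.OkW)
    (hns : ∀ c k, ((d.F c).p k).NS ν) (m : ℕ) :
    ((d.TW⁻¹ • ∑ i ∈ Finset.range (2 * m), zW d ^ i : Module.End ℝ C(X, ℝ)), qW ν d hns m)
      ∈ repSpan ν := by
  have hsm : ∀ A : H ν →L[ℂ] H ν, d.TW⁻¹ • A = ((d.TW⁻¹ : ℝ) : ℂ) • A := fun A =>
    (algebraMap_smul ℂ _ A).symm
  have hM : ((∑ c, d.Lw c * d.Lt c : Module.End ℝ C(X, ℝ)), MW ν d hns) ∈ repSpan ν := by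
    have := (repSpan ν).sum_mem (t := (Finset.univ : Finset (Fin r))) fun c _ =>
      mul_mem_rep (Lw_mem_rep hd hns c) (Lt_mem_rep d hns c)
    convert this using 1
    exact Prod.ext (by simp [Prod.fst_sum]) (by simp [Prod.snd_sum, MW])
  have h1 : (zW d, (1 : H ν →L[ℂ] H ν) - ((d.TW⁻¹ : ℝ) : ℂ) • MW ν d hns) ∈ repSpan ν := by
    have := (repSpan ν).sub_mem one_mem_rep ((repSpan ν).smul_mem d.TW⁻¹ hM)
    rw [← hsm]
    exact this
  have := (repSpan ν).smul_mem d.TW⁻¹ ((repSpan ν).sum_mem (t := Finset.range (2 * m))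
    fun i _ => pow_mem_rep h1 i)
  convert this using 1
  exact Prod.ext (by simp [Prod.fst_sum, Prod.pow_fst])
    (by simp only [qW, Prod.smul_snd, Prod.snd_sum, Prod.pow_snd, hsm])

theorem tendsto_linkW {ν : Measure X} [IsFiniteMeasure ν] [ν.Regular] {r : ℕ} {d : WData X r}
    (hd : d.OkW) (hns : ∀ c k, ((d.F c).p k).NS ν) (f : Fin r → C(X, ℝ)) (m : ℕ) :
    Tendsto (fun π : DiscreteQuotient X =>
      ((∑ c, ∑ j : π, ∫ x, f c x * (cellFn π j x
          * (d.act c x * cellFn π j x - d.PW (2 * m) (unitVec π c j) c x)) ∂ν : ℝ) : ℂ)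
        - ∑ c, diag (Win.one ν) π ((xWord ν (f c)).op *
            (Bop ν d hns c * qW ν d hns m * star (Bop ν d hns c))))
      atBot (𝓝 0) := by
  have h := tendsto_finsetSum (Finset.univ : Finset (Fin r)) fun c _ =>
    tendsto_rep (mul_mem_rep (mulC_mem_rep (μ := ν) (f c))
      (mul_mem_rep (mul_mem_rep (Lt_mem_rep d hns c) (q_mem_rep hd hns m)) (Lw_mem_rep hd hns c)))
  rw [Finset.sum_const_zero] at h
  refine h.congr fun π => ?_
  rw [Complex.ofReal_sum, ← Finset.sum_sub_distrib]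
  refine Finset.sum_congr rfl fun c _ => ?_
  simp only [Prod.mk_mul_mk, tauC]
  congr 2
  refine Finset.sum_congr rfl fun j _ => integral_congr_ae (Eventually.of_forall fun x => ?_)
  simp only [Module.End.mul_apply (mulC (f c)), ← complement_eq hd, mulC_apply,
    ContinuousMap.sub_apply, ContinuousMap.mul_apply]
  ring

theorem xWord_commute {s : Set (X × ℝ)} {ν : Measure X} [IsFiniteMeasure ν] (hs : MeasurableSet s)
    (g : C(X, ℝ)) : Commute (proj ν hs) (xWord ν g).op := by
  refine ContinuousLinearMap.ext fun u => Lp.ext ?_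
  show ⇑(proj ν hs ((xWord ν g).op u)) =ᵐ[nu ν] ⇑((xWord ν g).op (proj ν hs u))
  filter_upwards [coe_proj (μ := ν) hs ((xWord ν g).op u),
    coe_mulWord (μ := ν) (φ := fun z : X × ℝ => g z.1)
      (g.continuous.measurable.comp measurable_fst) (C := ‖g‖)
      (fun z => g.norm_coe_le_norm z.1) u,
    coe_mulWord (μ := ν) (φ := fun z : X × ℝ => g z.1)
      (g.continuous.measurable.comp measurable_fst) (C := ‖g‖)
      (fun z => g.norm_coe_le_norm z.1) (proj ν hs u),
    coe_proj (μ := ν) hs u] with z h1 h2 h3 h4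
  rw [h1, show ((xWord ν g).op (proj ν hs u) : H ν) z = _ from h3, h4]
  by_cases hz : z ∈ s
  · rw [Set.indicator_of_mem hz, Set.indicator_of_mem hz]
    exact h2
  · rw [Set.indicator_of_notMem hz, Set.indicator_of_notMem hz, mul_zero]

theorem xWord_mul {ν : Measure X} [IsFiniteMeasure ν] (g h : C(X, ℝ)) :
    (xWord ν g).op * (xWord ν h).op = (xWord ν (g * h)).op := by
  refine ContinuousLinearMap.ext fun u => Lp.ext ?_
  show ⇑((xWord ν g).op ((xWord ν h).op u)) =ᵐ[nu ν] _
  filter_upwards [coe_mulWord (μ := ν) (φ := fun z : X × ℝ => g z.1)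
      (g.continuous.measurable.comp measurable_fst) (C := ‖g‖)
      (fun z => g.norm_coe_le_norm z.1) ((xWord ν h).op u),
    coe_mulWord (μ := ν) (φ := fun z : X × ℝ => h z.1)
      (h.continuous.measurable.comp measurable_fst) (C := ‖h‖)
      (fun z => h.norm_coe_le_norm z.1) u,
    coe_mulWord (μ := ν) (φ := fun z : X × ℝ => (g * h) z.1)
      ((g * h).continuous.measurable.comp measurable_fst) (C := ‖g * h‖)
      (fun z => (g * h).norm_coe_le_norm z.1) u] with z h1 h2 h3
  rw [show ((xWord ν g).op ((xWord ν h).op u) : H ν) z = _ from h1,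
    show ((xWord ν h).op u : H ν) z = _ from h2, show ((xWord ν (g * h)).op u : H ν) z = _ from h3,
    ContinuousMap.mul_apply]
  push_cast; ring

/-- The square root of a charge. -/
noncomputable def rootC (g : C(X, ℝ)) : C(X, ℝ) :=
  ⟨fun x => √(g x), g.continuous.sqrt⟩

theorem rootC_mul {g : C(X, ℝ)} (hg : ∀ x, 0 ≤ g x) : rootC g * rootC g = g :=
  ContinuousMap.ext fun x => Real.mul_self_sqrt (hg x)

/-- The square root of a charge moves to both sides on the diagonal. -/
theorem tendsto_root {ν : Measure X} [IsFiniteMeasure ν] [ν.Regular] {g : C(X, ℝ)}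
    (hg : ∀ x, 0 ≤ g x) {A : H ν →L[ℂ] H ν} (hA : A ∈ alg ν) :
    Tendsto (fun π => diag (Win.one ν) π ((xWord ν g).op * A)
        - diag (Win.one ν) π ((xWord ν (rootC g)).op * A * (xWord ν (rootC g)).op))
      atBot (𝓝 0) := by
  set s := (xWord ν (rootC g)).op with hs
  set S0 := proj ν (Win.one ν).meas with hS0
  have hc : S0 * s = s * S0 := (xWord_commute _ _).eq
  have hss : s * s = (xWord ν g).op := by rw [hs, xWord_mul, rootC_mul hg]
  have hl : ∀ O : H ν →L[ℂ] H ν, ∀ π, diag (Win.one ν) π (S0 * O) = diag (Win.one ν) π O ∧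
      diag (Win.one ν) π (O * S0) = diag (Win.one ν) π O := fun O π => by
    constructor <;> refine Finset.sum_congr rfl fun j _ => ?_
    · show ⟪_, S0 (O (vec (Win.one ν) π j))⟫_ℂ = _
      rw [← ContinuousLinearMap.adjoint_inner_left S0, ← ContinuousLinearMap.star_eq_adjoint,
        hS0, proj_star, proj_vec]
    · show ⟪_, O (S0 (vec (Win.one ν) π j))⟫_ℂ = _
      rw [hS0, proj_vec]
  have h := tendsto_cyclic (Win.one ν) (Win.one ν) (B := s) (C := s * A) (op_mem_alg _)
    (mul_mem (op_mem_alg _) hA)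
  refine h.congr fun π => ?_
  rw [← hS0, show s * S0 * (s * A) = S0 * ((s * s) * A) by rw [← hc]; noncomm_ring, (hl _ π).1,
    hss, show s * A * S0 * s = s * A * (S0 * s) by noncomm_ring, hc,
    show s * A * (s * S0) = s * A * s * S0 by noncomm_ring, (hl _ π).2]

end Vale.Agent.P078.Quad.Defect
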