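import Vale.Agent.P078.Quad.Defect.Max
import Vale.Agent.P078.Quad.Defect.Link

/-! The charged low part: the weights against the supersolution, over the level. -/

namespace Vale.Agent.P078.Quad.Defect

set_option linter.unusedSectionVars false

open Filter Topology MeasureTheory
open Vale.Agent.P078.Tracial Vale.Agent.P078.AllMasa Vale.Agent.P078.AllMasa.Lift
open scoped ENNReal InnerProductSpace ComplexOrder

section algebra

variable {A : Type*} [Ring A]

/-- The first compression of a part is minus its propagation from the low part. -/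
theorem compress_eq {S0 s Mu MuI a E0 K P T N G D Q : A}
    (hS0E : S0 * s * Mu * a * E0 * P = 0) (haT : a * (1 - T) = P) (hPa : P * a = P)
    (hPP : P * P = P) (hMu : MuI * Mu = 1) (hNT : T * N = N * T) (hTQ : T * Q = 0)
    (hDP : D * P = P * (E0 - K) * P) (hGD : G * D = 1) :
    S0 * s * (Mu * (a * (E0 - K) * a) * N) * Q =
      -(S0 * s * Mu * a * K * P * G * (P * MuI) * (Mu * (a * (E0 - K) * a) * N) * Q) := by
  have hx : N * Q = (1 - T) * (N * Q) := by
    rw [sub_mul, one_mul, ← mul_assoc, hNT, mul_assoc, hTQ, mul_zero, sub_zero]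
  have hA : a * (E0 - K) * a * (N * Q) = a * (E0 - K) * P * (N * Q) := by
    conv_lhs => rw [hx]
    rw [← mul_assoc (a * (E0 - K) * a), mul_assoc (a * (E0 - K)) a, haT]
  have h1 : S0 * s * (Mu * (a * (E0 - K) * a) * N) * Q =
      -(S0 * s * Mu * a * K * P * (N * Q)) := by
    calc _ = S0 * s * Mu * (a * (E0 - K) * a * (N * Q)) := by noncomm_ring
      _ = S0 * s * Mu * a * E0 * P * (N * Q) - S0 * s * Mu * a * K * P * (N * Q) := by
          rw [hA]; noncomm_ring
      _ = _ := by rw [hS0E, zero_mul, zero_sub]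
  rw [h1, neg_inj]
  calc S0 * s * Mu * a * K * P * (N * Q)
      = S0 * s * Mu * a * K * P * G * (D * P) * (N * Q) := by
        rw [← mul_assoc _ D P, mul_assoc _ G D, hGD, mul_one, mul_assoc _ P P, hPP]
    _ = S0 * s * Mu * a * K * P * G * (P * a) * (E0 - K) * P * (N * Q) := by
        rw [hDP, hPa]; noncomm_ring
    _ = S0 * s * Mu * a * K * P * G * P * (a * (E0 - K) * P * (N * Q)) := by noncomm_ring
    _ = S0 * s * Mu * a * K * P * G * P * (MuI * Mu) * (a * (E0 - K) * a * (N * Q)) := by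
        rw [hA, hMu, mul_one]
    _ = _ := by noncomm_ring

theorem sandwich_eq [StarRing A] {S0 s W B Q : A} (h : S0 * s * B * Q = -(W * B * Q))
    (hS0 : star S0 = S0) (hs : star s = s) (hQ : star Q = Q) :
    S0 * (s * (B * Q * star B) * s) * S0 = W * (B * Q * star B) * star W := by
  have h5 : Q * star B * s * S0 = -(Q * star B * star W) := by
    have := congrArg star h
    simpa [star_mul, hS0, hs, hQ, mul_assoc] using this
  calc S0 * (s * (B * Q * star B) * s) * S0 = (S0 * s * B * Q) * star B * s * S0 := by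
        noncomm_ring
    _ = -(W * B) * (Q * star B * s * S0) := by rw [h]; noncomm_ring
    _ = W * (B * Q * star B) * star W := by rw [h5]; noncomm_ring

end algebra

variable {X : Type} [TopologicalSpace X] [CompactSpace X] [T2Space X] [TotallyDisconnectedSpace X]
variable [MeasurableSpace X] [BorelSpace X]
variable {ν : Measure X} [IsFiniteMeasure ν] {r : ℕ} {d : WData X r}

theorem coe_xWord (g : C(X, ℝ)) (u : H ν) :
    ⇑((xWord ν g).op u) =ᵐ[nu ν] fun z => ((g z.1 : ℝ) : ℂ) * u z :=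
  coe_mulWord (μ := ν) (φ := fun z : X × ℝ => g z.1)
    (g.continuous.measurable.comp measurable_fst) (C := ‖g‖)
    (fun z => g.norm_coe_le_norm z.1) u

/-- The multiplier divided into one. -/
noncomputable def invC {g : C(X, ℝ)} (hg : ∀ x, 0 < g x) : C(X, ℝ) :=
  ⟨fun x => (g x)⁻¹, g.continuous.inv₀ fun x => (hg x).ne'⟩

theorem xWord_invC {g : C(X, ℝ)} (hg : ∀ x, 0 < g x) :
    (xWord ν (invC hg)).op * (xWord ν g).op = 1 := by
  rw [xWord_mul, ← op_one (μ := ν)]
  refine op_congr rfl fun z => ?_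
  show (g z.1)⁻¹ * g z.1 = _
  rw [inv_mul_cancel₀ (hg z.1).ne']
  rfl

theorem posPres_xWord {g : C(X, ℝ)} (hg : ∀ x, 0 ≤ g x) : PosPres (xWord ν g).op :=
  Word.posPres _ fun z => hg z.1

theorem posPres_proj {s : Set (X × ℝ)} (hs : MeasurableSet s) : PosPres (proj ν hs) :=
  Word.posPres _ fun _ => Set.indicator_nonneg (fun _ _ => zero_le_one) _

theorem posPres_kop (hd : d.OkW) (hns : ∀ c k, ((d.F c).p k).NS ν) (c : Fin r) :
    PosPres (∑ k, (gWord ν ((d.F c).g k) ((d.F c).p k) (hns c k)).op) :=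
  PosPres.sum _ fun k _ => Word.posPres _ fun z =>
    ContinuousMap.le_def.1 ((hd.base.symm c).g_nonneg k) z.1

theorem PosFun.smul' {u : H ν} (hu : PosFun u) {c : ℝ} (hc : 0 ≤ c) : PosFun ((c : ℂ) • u) := by
  filter_upwards [Lp.coeFn_smul (c : ℂ) u, hu] with z h1 h2
  rw [h1, Pi.smul_apply, smul_eq_mul]
  exact mul_nonneg (Complex.zero_le_real.2 hc) h2

theorem PosFun.add' {u v : H ν} (hu : PosFun u) (hv : PosFun v) : PosFun (u + v) := by
  filter_upwards [Lp.coeFn_add u v, hu, hv] with z h1 h2 h3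
  rw [h1]
  exact add_nonneg h2 h3

/-- The charge on the window is below the weight. -/
theorem window_le (hd : d.OkW) (c : Fin r) {f : C(X, ℝ)} {c2 : ℝ}
    (hf : ∀ x, 0 ≤ f x) (hc2 : ∀ x, d.act c x = 1 → f x * d.μ c x ^ 2 ≤ c2 * d.n c x ^ 2)
    (hc20 : 0 ≤ c2) :
    PosFun ((√c2 : ℂ) • ((proj ν (aset_meas d.toLData c) * proj ν (Win.one ν).meas)
          ((xWord ν (d.n c)).op (Win.one ν).vec))
        - (proj ν (aset_meas d.toLData c) * (xWord ν (d.μ c)).op * (xWord ν (rootC f)).op *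
            proj ν (Win.one ν).meas) (Win.one ν).vec) := by
  set a := proj ν (aset_meas d.toLData c) with ha
  set S0 := proj ν (Win.one ν).meas with hS0
  set o := (Win.one ν).vec with ho
  set u1 := (xWord ν (d.n c)).op o with hu1
  set u2 := (xWord ν (rootC f)).op (S0 o) with hu2
  show PosFun (_ • a (S0 u1) - a ((xWord ν (d.μ c)).op u2))
  filter_upwards [Lp.coeFn_sub ((√c2 : ℂ) • a (S0 u1)) (a ((xWord ν (d.μ c)).op u2)),
    Lp.coeFn_smul (√c2 : ℂ) (a (S0 u1)), coe_proj (μ := ν) (aset_meas d.toLData c) (S0 u1),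
    coe_proj (μ := ν) (Win.one ν).meas u1,
    coe_proj (μ := ν) (aset_meas d.toLData c) ((xWord ν (d.μ c)).op u2),
    coe_xWord (ν := ν) (d.μ c) u2, coe_xWord (ν := ν) (rootC f) (S0 o),
    coe_proj (μ := ν) (Win.one ν).meas o, coe_xWord (ν := ν) (d.n c) o,
    posFun_vec (Win.one ν)] with z h0 h1 h2 h3 h4 h5 h6 h7 h8 ho'
  rw [h0, Pi.sub_apply, h1, Pi.smul_apply, h2, h4, smul_eq_mul]
  by_cases hza : z ∈ aset d.toLData c
  · rw [Set.indicator_of_mem hza, Set.indicator_of_mem hza, h3, h5, show u2 z = _ from h6, h7]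
    by_cases hzs : z ∈ (Win.one ν).s
    · rw [Set.indicator_of_mem hzs, Set.indicator_of_mem hzs, show u1 z = _ from h8,
        ← mul_assoc, ← mul_assoc, ← sub_mul, ← Complex.ofReal_mul, ← Complex.ofReal_mul,
        ← Complex.ofReal_sub]
      refine mul_nonneg (Complex.zero_le_real.2 (sub_nonneg.2 ?_)) ho'
      have h : √(f z.1 * d.μ c z.1 ^ 2) ≤ √(c2 * d.n c z.1 ^ 2) :=
        Real.sqrt_le_sqrt (hc2 z.1 hza.1)
      rw [Real.sqrt_mul (hf _), Real.sqrt_mul hc20, Real.sqrt_sq (hd.μ_pos c _).le,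
        Real.sqrt_sq (hd.n_pos c _).le, mul_comm] at h
      exact h
    · rw [Set.indicator_of_notMem hzs, Set.indicator_of_notMem hzs]
      simp
  · rw [Set.indicator_of_notMem hza, Set.indicator_of_notMem hza]
    simp

theorem low_normW [ν.Regular] (hd : d.OkW) (hnull : ∀ c k, ((d.F c).p k).NullPres ν)
    (hns : ∀ c k, ((d.F c).p k).NS ν) {τ0 : ℝ} (hτ0 : 0 < τ0)
    (hsuper : ∀ c (f : C(X, ℝ)), 0 ≤ f →
      (∫ x, d.act c x * d.n c x * (d.F c).K (d.act c * f) x ∂ν) + τ0 * ∫ x, d.act c x * f x ∂ν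
        ≤ ∫ x, d.e c x * d.n c x * (d.act c x * f x) ∂ν)
    (c : Fin r) {f : C(X, ℝ)} {c2 : ℝ} (hf : ∀ x, 0 ≤ f x)
    (hc2 : ∀ x, d.act c x = 1 → f x * d.μ c x ^ 2 ≤ c2 * d.n c x ^ 2) (hc20 : 0 ≤ c2)
    {R : ℝ} (hR : 1 ≤ R) {G : H ν →L[ℂ] H ν}
    (hGD : G * extOp ν d.toLData hns c R = 1) (hGpp : PosPres G) :
    ‖((xWord ν (invC (hd.μ_pos c))).op * proj ν (lowSet_meas d.toLData c R) * (G *
        (proj ν (lowSet_meas d.toLData c R) *
          (∑ k, (gWord ν ((d.F c).g k) ((d.F c).p k) (hns c k)).op) *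
          (proj ν (aset_meas d.toLData c) * (xWord ν (d.μ c)).op * (xWord ν (rootC f)).op *
            proj ν (Win.one ν).meas)))) (Win.one ν).vec‖ ^ 2
      ≤ c2 * ((∫ x, d.act c x * (d.n c x ^ 2 / d.μ c x ^ 2) ∂ν) * R⁻¹) := by
  set P := proj ν (lowSet_meas d.toLData c R) with hP
  set K := ∑ k, (gWord ν ((d.F c).g k) ((d.F c).p k) (hns c k)).op with hK
  set M := (xWord ν (invC (hd.μ_pos c))).op with hM
  set a := proj ν (aset_meas d.toLData c) with ha
  set S0 := proj ν (Win.one ν).meas with hS0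
  set N := (xWord ν (d.n c)).op with hN
  set D := extOp ν d.toLData hns c R with hD
  set o := (Win.one ν).vec with ho
  set b := a * (xWord ν (d.μ c)).op * (xWord ν (rootC f)).op * S0 with hb
  set W := M * P * (G * (P * K * b)) with hW
  have hR0 : 0 < R := one_pos.trans_le hR
  obtain ⟨v, hv, -⟩ := exists_weightW (ν := ν) (d := d) c (d.n c) hR0
  obtain ⟨w, hw, hwn⟩ := exists_weightW (ν := ν) (d := d) c (d.n c * invC (hd.μ_pos c)) hR0
  have hmax : PosFun (D v - (P * K * a * S0) (N o)) :=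
    max_principleW hd hnull hns hτ0 hsuper c hR hv
  have hwin : PosFun ((√c2 : ℂ) • ((a * S0) (N o)) - b o) := window_le hd c hf hc2 hc20
  have hkey : PosFun ((√c2 : ℂ) • D v - (P * K * b) o) := by
    have e : (√c2 : ℂ) • D v - (P * K * b) o = (√c2 : ℂ) • (D v - (P * K * a * S0) (N o))
        + (P * K) ((√c2 : ℂ) • ((a * S0) (N o)) - b o) := by
      rw [map_sub, map_smul, smul_sub]
      show _ = _ - (√c2 : ℂ) • P (K (a (S0 (N o)))) +
        ((√c2 : ℂ) • P (K (a (S0 (N o)))) - P (K (b o)))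
      rw [sub_add_sub_cancel]
      rfl
    rw [e]
    exact PosFun.add' (PosFun.smul' hmax (Real.sqrt_nonneg _))
      ((posPres_proj _).mul (posPres_kop hd hns c) _ hwin)
  have hMpp : PosPres M := posPres_xWord fun x => (inv_nonneg.2 (hd.μ_pos c x).le)
  have hu : PosFun ((√c2 : ℂ) • M (P v) - W o) := by
    have e : (√c2 : ℂ) • M (P v) - W o = (M * P) (G ((√c2 : ℂ) • D v - (P * K * b) o)) := by
      have hGDv : G (D v) = v := by
        show (G * D) v = v
        rw [hGD, one_apply_eq_self]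
      rw [map_sub, map_smul, hGDv, map_sub, map_smul]
      rfl
    rw [e]
    exact hMpp.mul (posPres_proj _) _ (hGpp _ hkey)
  have hWpp : PosPres W :=
    (hMpp.mul (posPres_proj _)).mul (hGpp.mul (((posPres_proj _).mul (posPres_kop hd hns c)).mul
      ((((posPres_proj _).mul (posPres_xWord fun x => (hd.μ_pos c x).le)).mul
        (posPres_xWord fun x => Real.sqrt_nonneg _)).mul (posPres_proj _))))
  have hnorm : ‖W o‖ ≤ ‖(√c2 : ℂ) • w‖ := by
    refine Lp.norm_le_norm_of_ae_le ?_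
    filter_upwards [hWpp o (posFun_vec _), hu, Lp.coeFn_sub ((√c2 : ℂ) • M (P v)) (W o),
      Lp.coeFn_smul (√c2 : ℂ) (M (P v)), Lp.coeFn_smul (√c2 : ℂ) w,
      coe_xWord (ν := ν) (invC (hd.μ_pos c)) (P v),
      coe_proj (μ := ν) (lowSet_meas d.toLData c R) v, hv, hw] with z h1 h2 h3 h4 h5 h6 h7 h8 h9
    have e : ((√c2 : ℂ) • M (P v)) z = ((√c2 : ℂ) • w) z := by
      rw [h4, h5, Pi.smul_apply, Pi.smul_apply, show M (P v) z = _ from h6, h7, h9]
      by_cases hz : z ∈ lowSet d.toLData c R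
      · rw [Set.indicator_of_mem hz, h8, Set.indicator_of_mem hz, Set.indicator_of_mem hz]
        congr 1
        show (((d.μ c z.1)⁻¹ : ℝ) : ℂ) * _ =
          ((d.n c z.1 * (d.μ c z.1)⁻¹ * z.2⁻¹ : ℝ) : ℂ)
        push_cast; ring
      · rw [Set.indicator_of_notMem hz, Set.indicator_of_notMem hz, mul_zero]
    rw [h3, Pi.sub_apply, e] at h2
    obtain ⟨ha1, ha2⟩ := Complex.nonneg_iff.1 h1
    obtain ⟨hb1, hb2⟩ := Complex.nonneg_iff.1 h2
    have hb3 : (W o z).re ≤ (((√c2 : ℂ) • w) z).re := by simpa [Complex.sub_re] using hb1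
    rw [Complex.norm_def, Complex.norm_def]
    refine Real.sqrt_le_sqrt ?_
    simp only [Complex.normSq_apply, ← ha2]
    nlinarith [mul_self_le_mul_self ha1 hb3, mul_self_nonneg (((√c2 : ℂ) • w) z).im]
  refine (pow_le_pow_left₀ (norm_nonneg _) hnorm 2).trans (le_of_eq ?_)
  rw [norm_smul, Complex.norm_real, Real.norm_of_nonneg (Real.sqrt_nonneg _), mul_pow,
    Real.sq_sqrt hc20, hwn]
  congr 2
  refine integral_congr_ae (Eventually.of_forall fun x => ?_)
  rcases hd.base.act_01 c x with h | h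
  · simp [h]
  · simp [h, invC, mul_pow, div_eq_mul_inv]

/-- The charged diagonal of the low part is at most the weights over the level. -/
theorem low_boundW [ν.Regular] (hd : d.OkW) (hnull : ∀ c k, ((d.F c).p k).NullPres ν)
    (hns : ∀ c k, ((d.F c).p k).NS ν) {τ0 : ℝ} (hτ0 : 0 < τ0)
    (hsuper : ∀ c (f : C(X, ℝ)), 0 ≤ f →
      (∫ x, d.act c x * d.n c x * (d.F c).K (d.act c * f) x ∂ν) + τ0 * ∫ x, d.act c x * f x ∂ν
        ≤ ∫ x, d.e c x * d.n c x * (d.act c x * f x) ∂ν)
    (c : Fin r) {f : C(X, ℝ)} {c2 : ℝ} (hf : ∀ x, 0 ≤ f x)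
    (hc2 : ∀ x, d.act c x = 1 → f x * d.μ c x ^ 2 ≤ c2 * d.n c x ^ 2) (hc20 : 0 ≤ c2)
    {R : ℝ} (hR : 1 ≤ R) {Q : H ν →L[ℂ] H ν} (hQ : 0 ≤ Q)
    (hTQ : proj ν (topSet_meas d.toLData R) * Q = 0)
    (hBQB : Bop ν d hns c * Q * star (Bop ν d hns c) ≤ 1) (π : DiscreteQuotient X) :
    (diag (Win.one ν) π ((xWord ν (rootC f)).op *
        (Bop ν d hns c * Q * star (Bop ν d hns c)) * (xWord ν (rootC f)).op)).re
      ≤ c2 * ((∫ x, d.act c x * (d.n c x ^ 2 / d.μ c x ^ 2) ∂ν) * R⁻¹) := by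
  set B := Bop ν d hns c with hB
  set s := (xWord ν (rootC f)).op with hs
  set Mu := (xWord ν (d.μ c)).op with hMu
  set MuI := (xWord ν (invC (hd.μ_pos c))).op with hMuI
  set N := (xWord ν (d.n c)).op with hN
  set E0 := (xWord ν (d.e c)).op with hE0
  set K := ∑ k, (gWord ν ((d.F c).g k) ((d.F c).p k) (hns c k)).op with hK
  set a := proj ν (aset_meas d.toLData c) with ha
  set P := proj ν (lowSet_meas d.toLData c R) with hP
  set T := proj ν (topSet_meas d.toLData R) with hT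
  set S0 := proj ν (Win.one ν).meas with hS0
  have hR0 : 0 < R := one_pos.trans_le hR
  have hBe : B = Mu * (a * (E0 - K) * a) * N := by
    rw [hB, Bop, Aop, xWord_act hd.base, ← ha, ← hE0, ← hK]
  have hPP : P * P = P := (proj_isStarProjection _).isIdempotentElem
  have hPa : P * a = P := by
    rw [hP, ha, proj_mul]
    refine proj_congr _ _ (Eventually.of_forall fun z => ?_)
    simp +contextual [lowSet, aset]
  have haP : a * P = P := by
    have := congrArg star hPa
    rwa [star_mul, hP, ha, proj_star, proj_star] at this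
  have haT : a * (1 - T) = P := by
    rw [hT, proj_one_sub, ha, proj_mul, hP]
    refine proj_congr _ _ ?_
    filter_upwards [ae_snd_pos (μ := ν)] with z hz
    simp only [aset, topSet, lowSet, Set.mem_inter_iff, Set.mem_prod, Set.mem_compl_iff,
      Set.mem_ofPred_eq, Set.mem_univ, and_true, Set.mem_Ioc, Set.mem_Ioi]
    refine ⟨fun ⟨h1, h2⟩ => ⟨h1, not_le.1 fun h => h2 ⟨?_, hz, h⟩⟩,
      fun ⟨h1, h2⟩ => ⟨h1, fun h => absurd h.2.2 (not_le.2 h2)⟩⟩
    rcases hd.base.U_01 z.1 with hU | hU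
    · linarith [hd.base.act_le c z.1]
    · exact hU
  have hS0P : S0 * P = 0 := by
    rw [hS0, hP, proj_mul]
    refine proj_empty _ (Set.eq_empty_of_forall_notMem fun z hz => ?_)
    have h1 : z.2 ≤ 1 := hz.1.2.2
    have h2 : R < z.2 := hz.2.2
    linarith
  have hS0E : S0 * s * Mu * a * E0 * P = 0 := by
    have h1 : Commute S0 (s * Mu * E0) :=
      ((xWord_commute _ _).mul_right (xWord_commute _ _)).mul_right (xWord_commute _ _)
    calc S0 * s * Mu * a * E0 * P = S0 * s * Mu * (a * E0) * P := by noncomm_ring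
      _ = S0 * s * Mu * (E0 * a) * P := by rw [(xWord_commute (aset_meas d.toLData c) (d.e c)).eq]
      _ = S0 * (s * Mu * E0) * (a * P) := by noncomm_ring
      _ = s * Mu * E0 * (S0 * P) := by rw [haP, h1.eq, mul_assoc]
      _ = 0 := by rw [hS0P, mul_zero]
  obtain ⟨G, hGsa, hGD, -, hGpp⟩ := exists_greenW hd hnull hns hτ0 hsuper c hR0
  have hDP : extOp ν d.toLData hns c R * P = P * (E0 - K) * P := by
    show (P * (E0 - K) * P + (d.B : ℂ) • (1 - P)) * P = _
    rw [add_mul, smul_mul_assoc, sub_mul, one_mul, hPP, sub_self, smul_zero, add_zero,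
      mul_assoc _ P P, hPP]
  set W := S0 * s * Mu * a * K * P * G * (P * MuI) with hW
  have h3 : S0 * s * B * Q = -(W * B * Q) := by
    rw [hBe]
    exact compress_eq hS0E haT hPa hPP (xWord_invC (hd.μ_pos c))
      (xWord_commute _ _).eq hTQ hDP hGD
  have hQsa : star Q = Q := (IsSelfAdjoint.of_nonneg hQ).star_eq
  have h4 := sandwich_eq h3 (proj_star _) (xWord_star _) hQsa
  have h6 : S0 * (s * (B * Q * star B) * s) * S0 ≤ W * star W := by
    rw [h4]
    have h7 := star_left_conjugate_le_conjugate hBQB (star W)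
    rwa [star_star, mul_one] at h7
  rw [← diag_proj (Win.one ν) π (s * (B * Q * star B) * s)]
  set b := a * Mu * s * S0 with hb
  have hWs : star W = MuI * P * (G * (P * K * b)) := by
    rw [hW, hb]
    simp only [star_mul, hs, hMu, hMuI, xWord_star, hP, ha, hS0, proj_star, hGsa,
      (kop_bound hd.base hns c).1.star_eq, hK, mul_assoc]
  have hpr : ∀ {t : Set (X × ℝ)} (ht : MeasurableSet t), PosPres (proj ν ht) := fun ht =>
    posPres_proj ht
  have hMuIpp : PosPres MuI := posPres_xWord fun x => inv_nonneg.2 (hd.μ_pos c x).le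
  have hMupp : PosPres Mu := posPres_xWord fun x => (hd.μ_pos c x).le
  have hspp : PosPres s := posPres_xWord fun x => Real.sqrt_nonneg _
  have hKpp : PosPres K := posPres_kop hd hns c
  have hWpp : PosPres W :=
    (((((((hpr _).mul hspp).mul hMupp).mul (hpr _)).mul hKpp).mul (hpr _)).mul hGpp).mul
      ((hpr _).mul hMuIpp)
  have hWspp : PosPres (star W) := by
    rw [hWs]
    exact (hMuIpp.mul (hpr _)).mul (hGpp.mul (((hpr _).mul hKpp).mul
      ((((hpr _).mul hMupp).mul hspp).mul (hpr _))))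
  refine ((diag_mono h6 _ π).trans (diag_le_inner (hWpp.mul hWspp) _ π)).trans ?_
  set o := (Win.one ν).vec with ho
  rw [show ⟪o, (W * star W) o⟫_ℂ = ⟪(star W) o, (star W) o⟫_ℂ by
    rw [ContinuousLinearMap.star_eq_adjoint]
    show ⟪o, W (ContinuousLinearMap.adjoint W o)⟫_ℂ = _
    rw [ContinuousLinearMap.adjoint_inner_left]]
  have e := inner_self_eq_norm_sq (𝕜 := ℂ) ((star W) o)
  simp only [RCLike.re_to_complex] at e
  rw [e, hWs]
  exact low_normW hd hnull hns hτ0 hsuper c hf hc2 hc20 hR hGD hGpp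

end Vale.Agent.P078.Quad.Defect
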