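import Vale.Agent.P078.Quad.Defect.Coercive

/-! The low part of the weighted defect: the maximum principle. -/

namespace Vale.Agent.P078.Quad.Defect

set_option linter.unusedSectionVars false

open Filter Topology MeasureTheory
open Vale.Agent.P078.Tracial Vale.Agent.P078.AllMasa Vale.Agent.P078.AllMasa.Lift
open scoped ENNReal InnerProductSpace ComplexOrder

variable {X : Type} [TopologicalSpace X] [CompactSpace X] [T2Space X] [TotallyDisconnectedSpace X]
variable [MeasurableSpace X] [BorelSpace X]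
variable {ν : Measure X} [IsFiniteMeasure ν] {r : ℕ} {d : WData X r}

theorem max_principleW [ν.Regular]
    (hd : d.OkW) (hnull : ∀ c k, ((d.F c).p k).NullPres ν)
    (hns : ∀ c k, ((d.F c).p k).NS ν) {τ0 : ℝ} (hτ0 : 0 < τ0)
    (hsuper : ∀ c (f : C(X, ℝ)), 0 ≤ f →
      (∫ x, d.act c x * d.n c x * (d.F c).K (d.act c * f) x ∂ν) + τ0 * ∫ x, d.act c x * f x ∂ν
        ≤ ∫ x, d.e c x * d.n c x * (d.act c x * f x) ∂ν)
    (c : Fin r) {R : ℝ} (hR : 1 ≤ R) {v : H ν}
    (hv : ⇑v =ᵐ[nu ν] (lowSet d.toLData c R).indicator (fun z => ((d.n c z.1 * (z.2)⁻¹ : ℝ) : ℂ))) :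
    PosFun (extOp ν d.toLData hns c R v -
      (proj ν (lowSet_meas d.toLData c R) * (∑ k, (gWord ν ((d.F c).g k) ((d.F c).p k) (hns c k)).op) *
        proj ν (aset_meas d.toLData c) * proj ν (Win.one ν).meas) ((xWord ν (d.n c)).op (Win.one ν).vec)) := by
  classical
  have hR0 : 0 < R := one_pos.trans_le hR
  set a := proj ν (aset_meas d.toLData c) with ha
  set P := proj ν (lowSet_meas d.toLData c R) with hP
  set S0 := proj ν (Win.one ν).meas with hS0
  set E0 := (xWord ν (d.e c)).op with hE0
  set K := ∑ k, (gWord ν ((d.F c).g k) ((d.F c).p k) (hns c k)).op with hK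
  set o := (xWord ν (d.n c)).op (Win.one ν).vec with ho
  have hg0 : ∀ k x, 0 ≤ (d.F c).g k x := fun k x =>
    ContinuousMap.le_def.1 ((hd.base.symm c).g_nonneg k) x
  set Ls := lowSet d.toLData c R with hLs
  -- the rate on the low part
  have hrate := ae_fst (super_aeW hd hnull hsuper c)
  have hpos : ∀ᵐ z ∂nu ν, ∀ k, z.1 ∈ ((d.F c).p k).dom →
      0 < (((d.F c).p k).dens ν z.1).toReal :=
    ae_all_iff.2 fun k => ae_fst (dens_pos (hns c k))
  have hPP : P * P = P := (proj_isStarProjection _).isIdempotentElem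
  set C0 := P * (E0 - K) * P with hC0
  set D := extOp ν d.toLData hns c R with hD
  have hDP : D * P = C0 := by
    show (C0 + (d.B : ℂ) • (1 - P)) * P = C0
    rw [add_mul, smul_mul_assoc, sub_mul, one_mul, hPP, sub_self, smul_zero, add_zero, hC0,
      mul_assoc, hPP]
  have hPv : P v = v := by
    refine Lp.ext ?_
    filter_upwards [coe_proj (μ := ν) (lowSet_meas d.toLData c R) v, hv] with z h1 h2
    rw [h1]
    by_cases hz : z ∈ lowSet d.toLData c R
    · rw [Set.indicator_of_mem hz]
    · rw [Set.indicator_of_notMem hz, h2, Set.indicator_of_notMem hz]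
  have e : D v - (P * K * a * S0) o = P ((E0 v - K v) - K (a (S0 o))) := by
    have e1 : D v = C0 v := by
      rw [← hDP]
      show D v = D (P v)
      rw [hPv]
    have e2 : C0 v = P ((E0 - K) (P v)) := by rw [hC0]; rfl
    rw [e1, e2, hPv, sub_apply, map_sub P (E0 v - K v) (K (a (S0 o)))]
    rfl
  rw [e]
  filter_upwards [coe_proj (μ := ν) (lowSet_meas d.toLData c R) ((E0 v - K v) - K (a (S0 o))),
    Lp.coeFn_sub (E0 v - K v) (K (a (S0 o))), Lp.coeFn_sub (E0 v) (K v),
    coe_mulWord (μ := ν) (φ := fun z : X × ℝ => d.e c z.1)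
      ((d.e c).continuous.measurable.comp measurable_fst) (C := ‖d.e c‖)
      (fun z => (d.e c).norm_coe_le_norm z.1) v,
    coe_sum_op (fun k => gWord ν ((d.F c).g k) ((d.F c).p k) (hns c k)) v,
    coe_sum_op (fun k => gWord ν ((d.F c).g k) ((d.F c).p k) (hns c k)) (a (S0 o)),
    ae_all_iff.2 fun k => (gWord ν ((d.F c).g k) ((d.F c).p k) (hns c k)).fn_congr hv,
    ae_all_iff.2 fun k => (gWord ν ((d.F c).g k) ((d.F c).p k) (hns c k)).fn_congr
      (show ⇑(a (S0 o)) =ᵐ[nu ν] fun y => (((aset d.toLData c).indicator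
        ((Win.one ν).s.indicator fun y => d.n c y.1) y : ℝ) : ℂ) by
        filter_upwards [coe_proj (μ := ν) (aset_meas d.toLData c) (S0 o),
          coe_proj (μ := ν) (Win.one ν).meas o,
          coe_mulWord (μ := ν) (φ := fun z : X × ℝ => d.n c z.1)
            ((d.n c).continuous.measurable.comp measurable_fst) (C := ‖d.n c‖)
            (fun z => (d.n c).norm_coe_le_norm z.1) (Win.one ν).vec,
          indicatorConstLp_coeFn (hs := (Win.one ν).meas) (hμs := (Win.one ν).fin)
            (c := (1 : ℂ)) (p := 2)] with y h1 h2 h3 h4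
        rw [h1, Set.indicator_apply, h2, Set.indicator_apply, show o y = _ from h3,
          show (Win.one ν).vec y = _ from h4]
        by_cases ha' : y ∈ aset d.toLData c <;> by_cases hs' : y ∈ (Win.one ν).s <;>
          simp [ha', hs']),
    hv, hrate, hpos] with z h1 h2 h3 h4 h5 h6 h7 h8 h9 hz1 hz2
  rw [h1]
  by_cases hz : z ∈ Ls
  · have hza : d.act c z.1 = 1 := hz.1
    have hz0 : 0 < z.2 := hR0.trans hz.2
    rw [Set.indicator_of_mem hz, h2, Pi.sub_apply, h3, Pi.sub_apply,
      show (E0 v : H ν) z = _ from h4, hK, h5, h6, h9, Set.indicator_of_mem hz,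
      sub_sub, ← Finset.sum_add_distrib]
    set ρ : Fin (d.F c).num → ℝ := fun k => (((d.F c).p k).dens ν z.1).toReal with hρ
    set φ : Fin (d.F c).num → ℝ := fun k => (dz ((d.F c).p k)).indicator (fun z =>
      (d.F c).g k z.1 * ((lowSet d.toLData c R).indicator (fun y => d.n c y.1 * (y.2)⁻¹) (th ν ((d.F c).p k) z) +
        (aset d.toLData c).indicator ((Win.one ν).s.indicator fun y => d.n c y.1)
          (th ν ((d.F c).p k) z))) z with hφ
    have e : ∀ k, (gWord ν ((d.F c).g k) ((d.F c).p k) (hns c k)).fn v z +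
        (gWord ν ((d.F c).g k) ((d.F c).p k) (hns c k)).fn (a (S0 o)) z = (φ k : ℂ) := fun k => by
      rw [h7 k, h8 k]
      by_cases hzd : z ∈ dz ((d.F c).p k)
      · have hzd' : z ∈ dz (gWord ν ((d.F c).g k) ((d.F c).p k) (hns c k)).p := hzd
        simp only [Word.fn, hφ, Set.indicator_of_mem hzd, Set.indicator_of_mem hzd']
        show (((d.F c).g k z.1 : ℝ) : ℂ) *
            (lowSet d.toLData c R).indicator (fun y => ((d.n c y.1 * (y.2)⁻¹ : ℝ) : ℂ)) (th ν ((d.F c).p k) z) +
          (((d.F c).g k z.1 : ℝ) : ℂ) * (((aset d.toLData c).indicator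
            ((Win.one ν).s.indicator fun y => d.n c y.1) (th ν ((d.F c).p k) z) : ℝ) : ℂ) = _
        by_cases hy : th ν ((d.F c).p k) z ∈ lowSet d.toLData c R
        · rw [Set.indicator_of_mem hy, Set.indicator_of_mem hy]
          push_cast; ring
        · rw [Set.indicator_of_notMem hy, Set.indicator_of_notMem hy]
          push_cast; ring
      · have hzd' : z ∉ dz (gWord ν ((d.F c).g k) ((d.F c).p k) (hns c k)).p := hzd
        simp [Word.fn, hφ, hzd, hzd']
    rw [Finset.sum_congr rfl fun k _ => e k, ← Complex.ofReal_sum, ← Complex.ofReal_mul,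
      ← Complex.ofReal_sub, Complex.zero_le_real, sub_nonneg]
    refine (Finset.sum_le_sum (g := fun k => ((((d.F c).p k).d z.1 * (d.F c).g k z.1 *
      (d.act c (((d.F c).p k).τ z.1) * d.n c (((d.F c).p k).τ z.1))) * ρ k) * z.2⁻¹)
        fun k _ => ?_).trans (by
        rw [← Finset.sum_mul, ← mul_assoc]
        exact mul_le_mul_of_nonneg_right
          (le_trans (le_add_of_nonneg_right hτ0.le) (hz1 hza)) (inv_nonneg.2 hz0.le))
    by_cases hk : z.1 ∈ ((d.F c).p k).dom
    · have hzd : z ∈ dz ((d.F c).p k) := ⟨hk, trivial⟩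
      simp only [hφ, Set.indicator_of_mem hzd, PMap.d_apply, if_pos hk, one_mul]
      rw [mul_assoc, mul_assoc]
      refine mul_le_mul_of_nonneg_left ?_ (hg0 k _)
      have hρ0 : 0 < ρ k := hz2 k hk
      set y := th ν ((d.F c).p k) z with hy
      have hy2 : y.2⁻¹ = ρ k * z.2⁻¹ := by
        show (z.2 / ρ k)⁻¹ = _
        rw [inv_div, div_eq_mul_inv]
      have hy1 : y.1 = ((d.F c).p k).τ z.1 := rfl
      have hn0 := hd.n_pos c (((d.F c).p k).τ z.1)
      by_cases hya : y ∈ aset d.toLData c
      · have hya1 : d.act c (((d.F c).p k).τ z.1) = 1 := hya.1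
        rw [hya1, one_mul, ← hy2, Set.indicator_of_mem hya]
        by_cases hs' : y ∈ (Win.one ν).s
        · have hn : y ∉ lowSet d.toLData c R := fun h => by
            have h1 : y.2 ≤ 1 := hs'.2.2
            have h2 : R < y.2 := h.2
            linarith
          rw [Set.indicator_of_notMem hn, Set.indicator_of_mem hs', zero_add, hy1]
          exact le_mul_of_one_le_right hn0.le ((one_le_inv₀ hs'.2.1).2 hs'.2.2)
        · rw [Set.indicator_of_notMem hs', add_zero]
          by_cases hyl : y ∈ lowSet d.toLData c R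
          · rw [Set.indicator_of_mem hyl]
            exact le_of_eq (by rw [hy1])
          · rw [Set.indicator_of_notMem hyl]
            exact mul_nonneg hn0.le (inv_nonneg.2 (div_nonneg hz0.le hρ0.le))
      · have hn : y ∉ lowSet d.toLData c R := fun h => hya ⟨h.1, trivial⟩
        rw [Set.indicator_of_notMem hn, Set.indicator_of_notMem hya, add_zero]
        refine mul_nonneg (mul_nonneg ?_ hn0.le) (mul_nonneg hρ0.le (inv_nonneg.2 hz0.le))
        rcases hd.base.act_01 c (((d.F c).p k).τ z.1) with h | h <;> simp [h]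
    · have hzd : z ∉ dz ((d.F c).p k) := fun h => hk h.1
      simp [hφ, hzd, PMap.d_apply, hk]
  · rw [Set.indicator_of_notMem hz]

end Vale.Agent.P078.Quad.Defect
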