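import Vale.Agent.P078.Quad.Ops
import Vale.Agent.P078.AllMasa.Defect

/-! The lifted operators of the weighted linearised budget. -/

namespace Vale.Agent.P078.Quad.Defect

set_option linter.unusedSectionVars false

open Filter Topology MeasureTheory
open Vale.Agent.P078.Tracial Vale.Agent.P078.AllMasa Vale.Agent.P078.AllMasa.Lift
open scoped ENNReal InnerProductSpace ComplexOrder

variable {X : Type} [TopologicalSpace X] [CompactSpace X] [T2Space X] [TotallyDisconnectedSpace X]
variable [MeasurableSpace X] [BorelSpace X]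

section abstract

variable {A : Type*} [CStarAlgebra A] [PartialOrder A] [StarOrderedRing A]

/-- An element whose square is below `N` compresses the inverse of `N` below one. -/
theorem conj_inverse_le_one' {b N : A} (hN : IsStrictlyPositive N) (h : star b * b ≤ N) :
    b * Ring.inverse N * star b ≤ 1 := by
  have : IsClosed ((⊤ : StarSubalgebra ℂ A) : Set A) := by simp
  obtain ⟨R, hR, -, hRR, hRNR, -⟩ := Schur.exists_invSqrt ⊤ hN StarSubalgebra.mem_top
  have h1 : star (b * R) * (b * R) ≤ 1 := by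
    have h2 := star_left_conjugate_le_conjugate h R
    rw [hR.star_eq, hRNR] at h2
    refine le_trans (le_of_eq ?_) h2
    rw [star_mul, hR.star_eq]; noncomm_ring
  have h3 : ‖b * R‖ * ‖b * R‖ ≤ 1 := by
    rw [← CStarRing.norm_star_mul_self]
    exact (CStarAlgebra.norm_le_one_iff_of_nonneg _ (star_mul_self_nonneg _)).2 h1
  have e : b * Ring.inverse N * star b = (b * R) * star (b * R) := by
    rw [star_mul, hR.star_eq, ← hRR]; noncomm_ring
  rw [e]
  refine (CStarAlgebra.norm_le_one_iff_of_nonneg _ (mul_star_self_nonneg _)).1 ?_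
  rw [CStarRing.norm_self_mul_star]
  exact h3

/-- An element below a multiple of one squeezes under conjugation. -/
theorem conj_le_smul {a x : A} {c : ℝ} (h : x ≤ (c : ℂ) • 1) :
    star a * x * a ≤ (c : ℂ) • (star a * a) := by
  refine (star_left_conjugate_le_conjugate h a).trans_eq ?_
  rw [mul_smul_comm, mul_one, smul_mul_assoc]

end abstract

variable (ν : Measure X) [IsFiniteMeasure ν] {r : ℕ} (d : WData X r)
variable (hns : ∀ c k, ((d.F c).p k).NS ν)

/-- The lift of the transposed part of one colour; its adjoint is the lift of the part. -/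
noncomputable def Bop (c : Fin r) : H ν →L[ℂ] H ν :=
  (xWord ν (d.μ c)).op * Aop ν d.toLData hns c * (xWord ν (d.n c)).op

/-- The lifted square of the weighted linearised budget. -/
noncomputable def MW : H ν →L[ℂ] H ν :=
  ∑ c, star (Bop ν d hns c) * Bop ν d hns c

/-- The polynomial with `1 - M q(M) = (1 - M / TW) ^ (2 m)`. -/
noncomputable def qW (m : ℕ) : H ν →L[ℂ] H ν :=
  ((d.TW⁻¹ : ℝ) : ℂ) •
    ∑ i ∈ Finset.range (2 * m), (1 - ((d.TW⁻¹ : ℝ) : ℂ) • MW ν d hns) ^ i

theorem Bop_mem (c : Fin r) : Bop ν d hns c ∈ alg ν :=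
  mul_mem (mul_mem (op_mem_alg _) (Aop_mem ν d.toLData hns c)) (op_mem_alg _)

theorem MW_mem : MW ν d hns ∈ alg ν :=
  sum_mem fun c _ => mul_mem (star_mem (Bop_mem ν d hns c)) (Bop_mem ν d hns c)

theorem qW_mem (m : ℕ) : qW ν d hns m ∈ alg ν :=
  SMulMemClass.smul_mem _ (sum_mem fun i _ =>
    pow_mem (sub_mem (one_mem _) (SMulMemClass.smul_mem _ (MW_mem ν d hns))) i)

variable {ν d}

theorem Bop_star (hd : d.OkW) (c : Fin r) : star (Bop ν d hns c) =
    (xWord ν (d.n c)).op * Aop ν d.toLData hns c * (xWord ν (d.μ c)).op := by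
  simp only [Bop, star_mul, xWord_star, Aop_star hd.base hns c, mul_assoc]

theorem norm_xWord_le {g : C(X, ℝ)} {C : ℝ} (h0 : 0 ≤ C) (h : ∀ x, |g x| ≤ C) :
    ‖(xWord ν g).op‖ ≤ C :=
  norm_op_le _ h0 (show ‖g‖ ≤ C from (ContinuousMap.norm_le _ h0).2 h)

theorem norm_Bop_le (hd : d.OkW) (c : Fin r) : ‖Bop ν d hns c‖ ≤ 2 * d.B ^ 3 := by
  have hB := hd.base.B_pos
  have hn : ‖(xWord ν (d.n c)).op‖ ≤ d.B := norm_xWord_le hB.le fun x => by
    rw [abs_of_pos (hd.n_pos c x)]; exact hd.n_le c x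
  have hμ : ‖(xWord ν (d.μ c)).op‖ ≤ d.B := norm_xWord_le hB.le fun x => by
    rw [abs_of_pos (hd.μ_pos c x)]; exact hd.μ_le c x
  refine (norm_mul_le _ _).trans ((mul_le_mul ((norm_mul_le _ _).trans (mul_le_mul hμ
    (norm_Aop_le hd.base hns c) (norm_nonneg _) hB.le)) hn (norm_nonneg _)
      (by positivity)).trans_eq ?_)
  ring

theorem TW_pos (hd : d.OkW) : 0 < d.TW := by
  unfold WData.TW
  have := hd.base.B_pos
  positivity

theorem MW_nonneg : 0 ≤ MW ν d hns :=
  Finset.sum_nonneg fun _ _ => star_mul_self_nonneg _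

theorem qW_le (hd : d.OkW) (n : ℕ) {ε : ℝ} (hε : 0 < ε)
    (hεn : ε * (d.TW⁻¹ * (2 * n)) ≤ 1) :
    qW ν d hns n ≤ ((2 : ℝ) : ℂ) • Ring.inverse (MW ν d hns + (ε : ℂ) • 1) := by
  set M := MW ν d hns with hM
  set t : ℝ := d.TW⁻¹ with ht
  have hT := TW_pos hd
  have ht0 : 0 < t := inv_pos.2 hT
  set Z := 1 - (t : ℂ) • M with hZ
  have hM0 : 0 ≤ M := MW_nonneg hns
  have hMn : ‖M‖ ≤ d.TW := by
    refine (norm_sum_le _ _).trans ((Finset.sum_le_sum fun c _ => (CStarRing.norm_star_mul_self).le.trans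
      (mul_le_mul (norm_Bop_le hns hd c) (norm_Bop_le hns hd c) (norm_nonneg _)
        (by have := hd.base.B_pos; positivity))).trans ?_)
    rw [Finset.sum_const, Finset.card_univ, Fintype.card_fin, nsmul_eq_mul]
    unfold WData.TW
    have h0 : 0 ≤ (2 * d.B ^ 3) ^ 2 := sq_nonneg _
    linarith [show 2 * d.B ^ 3 * (2 * d.B ^ 3) = (2 * d.B ^ 3) ^ 2 by ring]
  have htM : 0 ≤ (t : ℂ) • M :=
    (Schur.smul_mono ht0.le hM0).trans_eq' (smul_zero _)
  have hZ0 : 0 ≤ Z := by
    rw [hZ, sub_nonneg]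
    refine (Schur.smul_mono ht0.le (Schur.le_smul_norm (IsSelfAdjoint.of_nonneg hM0) hMn)).trans_eq ?_
    rw [smul_smul, ← Complex.ofReal_mul, ht, inv_mul_cancel₀ hT.ne', Complex.ofReal_one, one_smul]
  have hZn : ‖Z‖ ≤ 1 := Schur.norm_le_smul_one zero_le_one hZ0 (by
    rw [Complex.ofReal_one, one_smul, hZ]
    exact sub_le_self _ htM)
  have hZp : ∀ i : ℕ, ‖Z ^ i‖ ≤ 1 := fun i => by
    induction i with
    | zero => rw [pow_zero]; exact ContinuousLinearMap.norm_id_le
    | succ i ih =>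
      rw [pow_succ]
      exact (norm_mul_le _ _).trans (by
        simpa using mul_le_mul ih hZn (norm_nonneg _) zero_le_one)
  set q := qW ν d hns n with hq
  have hqd : q = (t : ℂ) • ∑ i ∈ Finset.range (2 * n), Z ^ i := rfl
  have hZsa : IsSelfAdjoint Z := IsSelfAdjoint.of_nonneg hZ0
  have hqsa : IsSelfAdjoint q := by
    rw [hqd]
    exact Schur.isSelfAdjoint_smul (isSelfAdjoint_sum _ fun i _ => hZsa.pow i) t
  have hqn : ‖q‖ ≤ t * (2 * n) := by
    rw [hqd, norm_smul, Complex.norm_real, Real.norm_of_nonneg ht0.le]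
    refine mul_le_mul_of_nonneg_left ((norm_sum_le _ _).trans
      ((Finset.sum_le_sum fun i _ => hZp i).trans_eq ?_)) ht0.le
    simp
  have hqM : q * M ≤ 1 := by
    have e : q * M = 1 - Z ^ (2 * n) := by
      rw [← geom_sum_mul_neg Z (2 * n), hZ, sub_sub_cancel, hqd, smul_mul_assoc, mul_smul_comm]
    rw [e]
    refine sub_le_self _ ?_
    have h := star_mul_self_nonneg (Z ^ n)
    rw [(hZsa.pow n).star_eq, ← pow_add] at h
    rwa [two_mul]
  have hqN : q * (M + (ε : ℂ) • 1) ≤ ((2 : ℝ) : ℂ) • (1 : H ν →L[ℂ] H ν) := by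
    rw [mul_add, mul_smul_comm, mul_one]
    refine (add_le_add hqM (Schur.smul_mono hε.le (Schur.le_smul_norm hqsa hqn))).trans ?_
    refine le_of_le_of_eq (add_le_add le_rfl (le_of_le_of_eq (b := ((1 : ℝ) : ℂ) • 1) ?_
      (by rw [Complex.ofReal_one, one_smul]))) ?_
    · rw [smul_smul, ← Complex.ofReal_mul]
      exact Schur.smul_one_mono hεn
    · rw [Complex.ofReal_ofNat, two_smul]
  refine Schur.le_inverse (Schur.isUnit_of_ge' hε (le_add_of_nonneg_left hM0)) ?_ hqN
  have hc : Commute q M := by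
    rw [hqd]
    refine Commute.smul_left (Commute.sum_left _ _ _ fun i _ => Commute.pow_left ?_ i) _
    exact (Commute.one_left M).sub_left ((Commute.refl M).smul_left _)
  exact hc.add_right ((Commute.one_right q).smul_right _)

end Vale.Agent.P078.Quad.Defect
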