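import Vale.Agent.P078.Quad.Defect.Model

/-! The weighted supersolution almost everywhere, and the weights of the low part as vectors. -/

namespace Vale.Agent.P078.Quad.Defect

set_option linter.unusedSectionVars false

open Filter Topology MeasureTheory
open Vale.Agent.P078.Tracial Vale.Agent.P078.AllMasa Vale.Agent.P078.AllMasa.Lift
open scoped ENNReal InnerProductSpace ComplexOrder

variable {X : Type} [TopologicalSpace X] [CompactSpace X] [T2Space X] [TotallyDisconnectedSpace X]
variable [MeasurableSpace X] [BorelSpace X]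
variable {ν : Measure X} [IsFiniteMeasure ν] {r : ℕ} {d : WData X r}

/-- The rate of the weighted translations at a point, seen in the lifted space. -/
noncomputable def rateW (ν : Measure X) (d : WData X r) (c : Fin r) (x : X) : ℝ :=
  ∑ k, (((d.F c).p k).d x * (d.F c).g k x *
      (d.act c (((d.F c).p k).τ x) * d.n c (((d.F c).p k).τ x))) *
    (((d.F c).p k).dens ν x).toReal

/-- The supersolution almost everywhere. -/
theorem super_aeW [ν.Regular] (hd : d.OkW) (hnull : ∀ c k, ((d.F c).p k).NullPres ν) {τ0 : ℝ}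
    (hsuper : ∀ c (f : C(X, ℝ)), 0 ≤ f →
      (∫ x, d.act c x * d.n c x * (d.F c).K (d.act c * f) x ∂ν) + τ0 * ∫ x, d.act c x * f x ∂ν
        ≤ ∫ x, d.e c x * d.n c x * (d.act c x * f x) ∂ν) (c : Fin r) :
    ∀ᵐ x ∂ν, d.act c x = 1 → rateW ν d c x + τ0 ≤ d.e c x * d.n c x := by
  classical
  obtain ⟨inv, hinv, hp, hg⟩ := (hd.base.symm c).exists_inv
  have hdi : ∀ k, Integrable (fun x => (((d.F c).p k).dens ν x).toReal) ν := fun k =>
    Measure.integrable_toReal_rnDeriv
  have hCc : ∀ f : C(X, ℝ), Integrable (fun x => f x) ν := fun f =>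
    Integrable.of_bound f.continuous.aestronglyMeasurable ‖f‖
      (Eventually.of_forall f.norm_coe_le_norm)
  have hmul : ∀ (f : C(X, ℝ)) (k), Integrable
      (fun x => f x * (((d.F c).p k).dens ν x).toReal) ν := fun f k =>
    (hdi k).bdd_mul f.continuous.aestronglyMeasurable (Eventually.of_forall f.norm_coe_le_norm)
  set φ : X → ℝ := fun x => d.act c x * (rateW ν d c x + τ0 - d.e c x * d.n c x) with hφ
  set m : Fin (d.F c).num → C(X, ℝ) := fun k =>
    d.act c * (((d.F c).p k).d * (d.F c).g k * (d.act c * d.n c).comp ((d.F c).p k).τ) with hm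
  have hφe : ∀ x, φ x = ∑ k, m k x * (((d.F c).p k).dens ν x).toReal
      + τ0 * d.act c x - d.e c x * d.n c x * d.act c x := fun x => by
    simp only [hφ, rateW, hm, ContinuousMap.mul_apply, ContinuousMap.comp_apply, mul_sub, mul_add,
      Finset.mul_sum]
    rw [mul_comm (d.act c x) τ0, mul_comm (d.act c x) (d.e c x * d.n c x)]
    congr 2
    exact Finset.sum_congr rfl fun k _ => by ring
  have hφi : Integrable φ ν := by
    refine Integrable.congr ?_ (Eventually.of_forall fun x => (hφe x).symm)
    exact ((integrable_finsetSum _ fun k _ => hmul (m k) k).add ((hCc (d.act c)).const_mul τ0)).sub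
      (hCc (d.e c * d.n c * d.act c))
  have key : ∀ᵐ x ∂ν, φ x ≤ 0 := by
    refine ae_nonpos_of_clopen hφi fun V hV => ?_
    set f : C(X, ℝ) := ind V hV with hf
    have hf0 : 0 ≤ f := ContinuousMap.le_def.2 fun x => by
      by_cases h : x ∈ V <;> simp [hf, ind_apply, h]
    have h1 := hsuper c f hf0
    have e1 : ∫ x in V, φ x ∂ν = ∫ x, f x * φ x ∂ν := by
      rw [← integral_indicator hV.isClosed.measurableSet]
      refine integral_congr_ae (Eventually.of_forall fun x => ?_)
      by_cases h : x ∈ V <;> simp [hf, ind_apply, h]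
    have ek : ∀ k, ∫ x, (f * m k) x * (((d.F c).p k).dens ν x).toReal ∂ν =
        ∫ x, d.act c x * d.n c x *
          ((d.F c).g (inv k) x * ((d.F c).p (inv k)).T (d.act c * f) x) ∂ν := by
      intro k
      simp_rw [mul_comm ((f * m k) _) _]
      rw [integral_dens (ns_of_symm hd.base hnull c k) (f * m k).continuous,
        ← integral_indicator ((d.F c).p k).rng_clopen.isClosed.measurableSet, hp k, hg k]
      refine integral_congr_ae (Eventually.of_forall fun y => ?_)
      by_cases hy : y ∈ ((d.F c).p k).rng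
      · simp only [Set.indicator_of_mem hy, PMap.T, PMap.symm, PMap.d_apply,
          ContinuousMap.mul_apply, ContinuousMap.comp_apply, hm, hy, if_true, one_mul,
          ((d.F c).p k).map_rng y hy, ((d.F c).p k).right_inv y hy]
        ring
      · simp [PMap.T, PMap.symm, PMap.d_apply, hy]
    have e2 : ∫ x, f x * φ x ∂ν = (∫ x, d.act c x * d.n c x * (d.F c).K (d.act c * f) x ∂ν)
        + τ0 * (∫ x, d.act c x * f x ∂ν) - ∫ x, d.e c x * d.n c x * (d.act c x * f x) ∂ν := by
      have e3 : ∀ x, f x * φ x = ∑ k, (f * m k) x * (((d.F c).p k).dens ν x).toReal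
          + τ0 * (d.act c x * f x) - d.e c x * d.n c x * (d.act c x * f x) := fun x => by
        rw [hφe x, mul_sub, mul_add, Finset.mul_sum]
        simp only [ContinuousMap.mul_apply, ← mul_assoc]
        ring
      have i1 : Integrable (fun x => ∑ k, (f * m k) x * (((d.F c).p k).dens ν x).toReal) ν :=
        integrable_finsetSum _ fun k _ => hmul (f * m k) k
      have i2 : Integrable (fun x => τ0 * (d.act c x * f x)) ν :=
        (hCc (d.act c * f)).const_mul τ0
      have i3 : Integrable (fun x => d.e c x * d.n c x * (d.act c x * f x)) ν :=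
        hCc (d.e c * d.n c * (d.act c * f))
      rw [integral_congr_ae (Eventually.of_forall e3), integral_sub ?_ i3, integral_add i1 i2,
        integral_const_mul, integral_finsetSum _ fun k _ => hmul (f * m k) k]
      swap; · exact i1.add i2
      simp only [ek]
      rw [← integral_finsetSum _ fun k _ => ?_]
      · congr 2
        refine integral_congr_ae (Eventually.of_forall fun x => ?_)
        simp only [Fam.K, ContinuousMap.coe_sum, Finset.sum_apply, ContinuousMap.mul_apply,
          Finset.mul_sum]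
        exact Equiv.sum_comp hinv.toPerm
          fun k => d.act c x * d.n c x * ((d.F c).g k x * ((d.F c).p k).T (d.act c * f) x)
      · exact hCc (d.act c * d.n c * ((d.F c).g (inv k) * ((d.F c).p (inv k)).T (d.act c * f)))
    rw [e1, e2]
    linarith
  filter_upwards [key] with x hx ha
  simp only [hφ, ha, one_mul] at hx
  linarith

/-- The weight on the low part, as a vector. -/
theorem exists_weightW (c : Fin r) (f : C(X, ℝ)) {R : ℝ} (hR : 0 < R) :
    ∃ v : H ν, ⇑v =ᵐ[nu ν] (lowSet d.toLData c R).indicator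
        (fun z => ((f z.1 * (z.2)⁻¹ : ℝ) : ℂ)) ∧
      ‖v‖ ^ 2 = (∫ x, {x | d.act c x = 1}.indicator (fun x => f x ^ 2) x ∂ν) * R⁻¹ := by
  set A : Set X := {x | d.act c x = 1}
  have hA : MeasurableSet A := measurableSet_eq_fun (d.act c).continuous.measurable measurable_const
  set g : X × ℝ → ℂ := (lowSet d.toLData c R).indicator fun z =>
    ((f z.1 * (z.2)⁻¹ : ℝ) : ℂ) with hg
  have hgm : AEStronglyMeasurable g (nu ν) :=
    ((Complex.measurable_ofReal.comp ((f.continuous.measurable.comp measurable_fst).mul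
      measurable_snd.inv)).indicator (lowSet_meas d.toLData c R)).aestronglyMeasurable
  obtain ⟨hI, hI2⟩ := lintegral_rpow_neg_two hR
  have e : (fun z => ‖g z‖ ^ 2) = fun z : X × ℝ =>
      A.indicator (fun x => f x ^ 2) z.1 * (Set.Ioi R).indicator (fun u : ℝ => (u⁻¹) ^ 2) z.2 := by
    funext z
    by_cases h1 : z.1 ∈ A <;> by_cases h2 : z.2 ∈ Set.Ioi R
    · have hz : z ∈ lowSet d.toLData c R := ⟨h1, h2⟩
      simp [hg, Set.indicator_of_mem hz, h1, Set.indicator_of_mem h2, mul_pow]
    all_goals
      have hz : z ∉ lowSet d.toLData c R := fun h => by first | exact h1 h.1 | exact h2 h.2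
      simp [hg, Set.indicator_of_notMem hz, h1, h2]
  have hvol : (volume.restrict (Set.Ioi (0 : ℝ))).restrict (Set.Ioi R) =
      volume.restrict (Set.Ioi R) := by
    rw [Measure.restrict_restrict measurableSet_Ioi,
      Set.inter_eq_left.2 (Set.Ioi_subset_Ioi hR.le)]
  have hi : Integrable (fun z => ‖g z‖ ^ 2) (nu ν) := by
    rw [e]
    refine Integrable.mul_prod ((integrable_cont (f ^ 2)).indicator hA) ?_
    rw [integrable_indicator_iff measurableSet_Ioi, IntegrableOn, hvol]
    exact hI
  have hm : MemLp g 2 (nu ν) := (memLp_two_iff_integrable_sq_norm hgm).2 hi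
  refine ⟨hm.toLp g, MemLp.coeFn_toLp hm, ?_⟩
  have h1 : ‖hm.toLp g‖ ^ 2 = ∫ z, ‖g z‖ ^ 2 ∂nu ν := by
    rw [← inner_self_eq_norm_sq (𝕜 := ℂ) (hm.toLp g), L2.inner_def]
    refine ((integral_re (L2.integrable_inner (𝕜 := ℂ) _ _)).symm).trans (integral_congr_ae ?_)
    filter_upwards [MemLp.coeFn_toLp hm] with z hz
    rw [hz]
    exact inner_self_eq_norm_sq (𝕜 := ℂ) (g z)
  rw [h1, e, nu, integral_prod_mul (A.indicator (fun x => f x ^ 2))
    ((Set.Ioi R).indicator fun u : ℝ => (u⁻¹) ^ 2), integral_indicator measurableSet_Ioi, hvol, hI2]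

end Vale.Agent.P078.Quad.Defect
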